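import Vale.Agent.P307.R2.H1.Avg
import Vale.Agent.P307.R2.H971.Sat

set_option linter.unusedSectionVars false

universe u v w

open FirstOrder Cardinal Set

namespace Vale.Agent.P307.R2.H1

open Vale.Agent.P307 Vale.Agent.P307.H304 Vale.Agent.P307.R2.H287 Vale.Agent.P307.R2.H971
  Language.Structure Language.Substructure

variable {L : Language.{u, u}} {K : AEC L} {ℓ θ : Cardinal.{u}} {κf : Cardinal.{u} → Cardinal.{u}}
  {t : Tpl K ℓ}

/-- (R) for families. -/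
theorem exists_real' (hK : K.IsLS ℓ) (hunb : ∀ ν, ν < κf ν ∧ K.CategoricalIn (κf ν))
    {ν : Cardinal.{u}} (hℓ : ℓ ≤ ν) (hνθ : ν ≤ θ) {I : Type u} [LinearOrder I] (hI : Nice θ I)
    (E : EM t I) (hE : thr κf (opB κf ν) ≤ #E.N) {M : Type u} [L.Structure M] {ι : Type u}
    (hι : #ι ≤ ν) (c : ι → M) {A : Type u} (hA : #A ≤ θ) (p : A → M) (q : A → E.N)
    (hpq : ∀ (ζ : Type u) (y : ζ → A), #ζ ≤ limB κf ν →
      EqS L (limB κf ν) (fun z => p (y z)) (fun z => q (y z))) :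
    ∃ c' : ι → E.N, ∀ (ζ : Type u) (y : ζ → A), #ζ ≤ ν →
      EqS L ν (Sum.elim (fun z => p (y z)) c) (Sum.elim (fun z => q (y z)) c') := by
  have hν : ℵ₀ ≤ ν := hK.1.trans hℓ
  have hνB : ν ≤ limB κf ν := (le_opB hunb ν).trans (opB_le_limB κf ν)
  obtain ⟨c', hc'⟩ := exists_real hK hunb hℓ hνθ hI E hE hι c (range fun a => (p a, q a)) (by
    refine le_trans ?_ hA
    refine mk_image_le.trans ?_
    exact mk_range_le) (by
    intro Y hY hYB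
    choose b hb using fun y : Y => hY y.2
    obtain ⟨c', hc'⟩ := EqS.exists_ext (hpq Y b hYB) (hι.trans hνB) c
    refine ⟨c', fun Y' hY' hY'ν => ?_⟩
    refine Good.mono hν hνB (Good.subset hc' ?_) ?_
    · rintro p' (hp' | ⟨i, rfl⟩)
      · refine ⟨Sum.inl ⟨p', hY' hp'⟩, ?_⟩
        exact hb ⟨p', hY' hp'⟩
      · exact ⟨Sum.inr i, rfl⟩
    · exact (mk_union_le _ _).trans (add_le_of_le hν hY'ν (mk_range_le.trans hι)))
  refine ⟨c', fun ζ y hζ => ?_⟩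
  refine (hc' (range fun z => (p (y z), q (y z))) ?_ (mk_range_le.trans hζ)).subset ?_
  · rintro _ ⟨z, rfl⟩
    exact ⟨y z, rfl⟩
  · rintro _ ⟨z | i, rfl⟩
    · exact Or.inl ⟨z, rfl⟩
    · exact Or.inr ⟨i, rfl⟩

/-- The hypotheses on the cardinal `θ`. -/
structure Pt (K : AEC L) (ℓ : Cardinal.{u}) (κf : Cardinal.{u} → Cardinal.{u})
    (θ : Cardinal.{u}) : Prop where
  lt : ℓ < θ
  cof : θ.ord.cof = ℵ₀
  thr : ∀ ρ < θ, thr κf ρ < θ
  lim : ∀ ρ < θ, limB κf ρ < θ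
  cat : K.CategoricalIn θ

/-- Types of `s`-tuples over standard submodels are determined by small pieces. -/
def TameAt (t : Tpl K ℓ) (θ s H : Cardinal.{u}) : Prop :=
  ∀ (I : Type u) [LinearOrder I] (E : EM t I) (W : Set I), θ ≤ #I →
    ∀ (X : Type u) (c c' : X → E.N), #X ≤ s →
    (∀ (ι : Type u) (a : ι → E.N), #ι ≤ H → (∀ i, a i ∈ closure (exLang L t.Λ) (E.c '' W)) →
      EqS L H (Sum.elim a c) (Sum.elim a c')) →
    ∀ ν < θ, ℓ ≤ ν → #X ≤ ν → ∀ (ι : Type u) (a : ι → E.N), #ι ≤ ν →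
      (∀ i, a i ∈ closure (exLang L t.Λ) (E.c '' W)) → EqS L ν (Sum.elim a c) (Sum.elim a c')

/-- Two strong embeddings of a member of size `θ`. -/
theorem eqS_two (hK : K.IsLS ℓ) (hunb : ∀ ν, ν < κf ν ∧ K.CategoricalIn (κf ν))
    (hθ : Pt K ℓ κf θ) {A M N : Type u} [L.Structure A] [L.Structure M] [L.Structure N]
    (f : A ↪[L] M) (g : A ↪[L] N) (hf : K.Emb f) (hg : K.Emb g) (hA : #A = θ) {ρ : Cardinal.{u}}
    (hρ : ρ < θ) (hℓ : ℓ ≤ ρ) {ι : Type u} (hι : #ι ≤ ρ) (b : ι → A) :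
    EqS L ρ (fun i => f (b i)) (fun i => g (b i)) := by
  have h1 : Vale.Agent.P307.R2.H287.thr κf ρ ≤ #A := (hθ.thr ρ hρ).le.trans hA.ge
  exact (EqS.map_emb hK hunb hℓ f hf h1 hι b).symm.trans (EqS.map_emb hK hunb hℓ g hg h1 hι b)

/-- The standard pair used for the comparison. -/
structure StPair (t : Tpl K ℓ) (θ : Cardinal.{u}) where
  W : Type u
  V : Type u
  [oW : LinearOrder W]
  [oV : LinearOrder V]
  S : EM t W
  S' : EM t V
  σ : W → V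
  j : S.N ↪[L] S'.N
  hj : K.Emb j
  card : #S.N = θ
  nice : Nice θ V
  hV : θ ≤ #V
  hr : ∀ x, x ∈ closure (exLang L t.Λ) (S'.c '' range σ) ↔ ∃ a, j a = x

attribute [instance] StPair.oW StPair.oV

theorem exists_stPair (t : Tpl K ℓ) (hℓ : ℓ ≤ θ) : Nonempty (StPair t θ) := by
  have hθ : ℵ₀ ≤ θ := t.hν.trans hℓ
  obtain ⟨V, _, σ, hV, hσ⟩ := exists_nice_ext θ hθ θ.ord.ToType
  obtain ⟨S⟩ := exists_em t θ.ord.ToType
  obtain ⟨S'⟩ := exists_em t V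
  obtain ⟨j, hj, hj'⟩ := S.exists_map S' σ hσ
  have hc : #θ.ord.ToType = θ := by rw [mk_toType, card_ord]
  refine ⟨⟨θ.ord.ToType, V, S, S', σ, j, hj, S.card_eq hℓ hc, hV, ?_, fun x => ?_⟩⟩
  · exact hc.symm.trans_le (mk_le_of_injective hσ.injective)
  · rw [← range_comp]
    change x ∈ closure (exLang L t.Λ) (range fun i => S'.c (σ i)) ↔ _
    rw [Gr.mem_closure_range]
    constructor
    · rintro ⟨s, rfl⟩
      exact ⟨s.realize S.c, hj' s⟩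
    · rintro ⟨a, rfl⟩
      have h3 : a ∈ closure (exLang L t.Λ) (range S.c) := by rw [S.top]; trivial
      obtain ⟨s, rfl⟩ := Gr.mem_closure_range.1 h3
      exact ⟨s, (hj' s).symm⟩

section

variable (hK : K.IsLS ℓ) (hunb : ∀ ν, ν < κf ν ∧ K.CategoricalIn (κf ν)) (hθ : Pt K ℓ κf θ)
  (p : StPair t θ)

include hK hunb hθ

/-- Claim 1. -/
theorem claim1 {s H : Cardinal.{u}} (hs : ℓ ≤ s) (hsH : s ≤ H) (hH : H < θ)
    (hT : TameAt t θ s H) {M : Type u} [L.Structure M] (h : p.S.N ↪[L] M) (hh : K.Emb h)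
    {X : Type u} (hX : #X ≤ s) (e : X → M) :
    ∃ e' : X → p.S'.N, ∀ ρ < θ, s ≤ ρ → ∀ (ι : Type u) (b : ι → p.S.N), #ι ≤ ρ →
      EqS L ρ (Sum.elim (fun i => h (b i)) e) (Sum.elim (fun i => p.j (b i)) e') := by
  -- realizations at the different levels
  have key : ∀ ρ, ρ < θ → s ≤ ρ → ∃ e' : X → p.S'.N, ∀ (ι : Type u) (b : ι → p.S.N), #ι ≤ ρ →
      EqS L ρ (Sum.elim (fun i => h (b i)) e) (Sum.elim (fun i => p.j (b i)) e') := by
    intro ρ hρ hsρ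
    have h1 : opB κf ρ < θ := (opB_le_limB κf ρ).trans_lt (hθ.lim ρ hρ)
    refine exists_real' hK hunb (hs.trans hsρ) hρ.le p.nice p.S'
      (((hθ.thr _ h1).le.trans p.hV).trans p.S'.le_card) (hX.trans hsρ) e p.card.le h p.j ?_
    intro ζ y hζ
    exact eqS_two hK hunb hθ h p.j hh p.hj p.card (hθ.lim ρ hρ)
      (((hs.trans hsρ).trans (le_opB hunb ρ)).trans (opB_le_limB κf ρ)) hζ y
  have hsν : ℵ₀ ≤ s := hK.1.trans hs
  obtain ⟨e', he'⟩ := key H hH hsH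
  refine ⟨e', fun ρ hρ hsρ ι b hι => ?_⟩
  obtain ⟨e'', he''⟩ := key (max ρ H) (max_lt hρ hH) (hsρ.trans (le_max_left _ _))
  have hm : ℵ₀ ≤ H := hsν.trans hsH
  have h1 := hT p.V p.S' (range p.σ) p.hV X e'' e' hX (by
    intro ι a hι ha
    choose b hb using fun i => (p.hr _).1 (ha i)
    obtain rfl : (fun i => p.j (b i)) = a := funext hb
    have h2 := he' ι b hι
    have h3 := EqS.mono hm (le_max_right ρ H) (he'' ι b (hι.trans (le_max_right _ _))) (by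
      rw [mk_sum, lift_id, lift_id]
      exact add_le_of_le hm hι (hX.trans hsH))
    exact h3.symm.trans h2) (max ρ H) (max_lt hρ hH) ((hs.trans hsH).trans (le_max_right _ _))
    ((hX.trans hsH).trans (le_max_right _ _)) ι (fun i => p.j (b i))
    (hι.trans (le_max_left _ _)) (fun i => (p.hr _).2 ⟨b i, rfl⟩)
  have h2 := (he'' ι b (hι.trans (le_max_left _ _))).trans h1
  refine EqS.mono (hsν.trans hsρ) (le_max_left _ _) h2 ?_
  rw [mk_sum, lift_id, lift_id]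
  exact add_le_of_le (hsν.trans hsρ) hι (hX.trans hsρ)

/-- Claim 2: equality at level `H` implies equality at all levels. -/
theorem claim2 {s H : Cardinal.{u}} (hs : ℓ ≤ s) (hsH : s ≤ H) (hH : H < θ)
    (hT : TameAt t θ s H) {M N : Type u} [L.Structure M] [L.Structure N] (h : p.S.N ↪[L] M)
    (hh : K.Emb h) (g : p.S.N ↪[L] N) (hg : K.Emb g) {X : Type u} (hX : #X ≤ s) (e : X → M)
    (e' : X → N) (hee : ∀ (ι : Type u) (b : ι → p.S.N), #ι ≤ H →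
      EqS L H (Sum.elim (fun i => h (b i)) e) (Sum.elim (fun i => g (b i)) e')) :
    ∀ ρ < θ, s ≤ ρ → ∀ (ι : Type u) (b : ι → p.S.N), #ι ≤ ρ →
      EqS L ρ (Sum.elim (fun i => h (b i)) e) (Sum.elim (fun i => g (b i)) e') := by
  obtain ⟨d, hd⟩ := claim1 hK hunb hθ p hs hsH hH hT h hh hX e
  obtain ⟨d', hd'⟩ := claim1 hK hunb hθ p hs hsH hH hT g hg hX e'
  intro ρ hρ hsρ ι b hι
  have h1 := hT p.V p.S' (range p.σ) p.hV X d d' hX (by
    intro ι a hι ha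
    choose b hb using fun i => (p.hr _).1 (ha i)
    obtain rfl : (fun i => p.j (b i)) = a := funext hb
    exact ((hd H hH hsH ι b hι).symm.trans (hee ι b hι)).trans (hd' H hH hsH ι b hι)) ρ hρ
    (hs.trans hsρ) (hX.trans hsρ) ι (fun i => p.j (b i)) hι (fun i => (p.hr _).2 ⟨b i, rfl⟩)
  exact ((hd ρ hρ hsρ ι b hι).trans h1).trans (hd' ρ hρ hsρ ι b hι).symm

omit hK hunb hθ in
/-- A family over `B` and a family over `C` in the same position over the images of `S`. -/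
def GoodFam (ℓ : Cardinal.{u}) (p : StPair t θ) {B C : Type u} [L.Structure B] [L.Structure C]
    (f : p.S.N ↪[L] B) (i : p.S.N ↪[L] C) {P : Type u} (x : P → B) (c : P → C) : Prop :=
  ∀ ρ < θ, #P ≤ ρ → ℓ ≤ ρ → ∀ (ι : Type u) (b : ι → p.S.N), #ι ≤ ρ →
    EqS L ρ (Sum.elim (fun z => f (b z)) x) (Sum.elim (fun z => i (b z)) c)

/-- The extension step. -/
theorem exists_step' (hT : ∀ s, ℓ ≤ s → s < θ → ∃ H, s ≤ H ∧ H < θ ∧ TameAt t θ s H)
    {B : Type u} [L.Structure B] {J : Type u} [LinearOrder J] (hJ : Nice θ J) (E : EM t J)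
    (hE : θ ≤ #E.N) (f : p.S.N ↪[L] B) (hf : K.Emb f) (i : p.S.N ↪[L] E.N) (hi : K.Emb i)
    {P : Type u} (hP : #P < θ) (x : P → B) (c : P → E.N) (hg : GoodFam ℓ p f i x c) (D : Set B)
    (hD : #D < θ) :
    ∃ (T : L.Substructure B) (c' : T → E.N), K.le T ∧ #T < θ ∧ D ⊆ T ∧
      GoodFam ℓ p f i (fun y : T => (y : B)) c' ∧
      ∀ z, ∃ h : x z ∈ T, c' ⟨x z, h⟩ = c z := by
  have hθ0 : ℵ₀ < θ := hK.1.trans_lt hθ.lt
  obtain ⟨T, hT1, hT2, hT3⟩ := hK.2.2 B hf.mem_right (range x ∪ D)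
  have hTθ : #T < θ := by
    refine hT3.trans_lt (add_lt_of_lt hθ0.le ?_ hθ.lt)
    exact (mk_union_le _ _).trans_lt (add_lt_of_lt hθ0.le (mk_range_le.trans_lt hP) hD)
  let s : Cardinal.{u} := max (max ℓ #T) #P
  have hs : ℓ ≤ s := (le_max_left _ _).trans (le_max_left _ _)
  have hTs : #T ≤ s := (le_max_right _ _).trans (le_max_left _ _)
  have hPs : #P ≤ s := le_max_right _ _
  have hsθ : s < θ := max_lt (max_lt hθ.lt hTθ) hP
  obtain ⟨H, hsH, hHθ, hH⟩ := hT s hs hsθ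
  have hH0 : ℵ₀ ≤ H := (hK.1.trans hs).trans hsH
  have hHB : H ≤ limB κf H := (le_opB hunb H).trans (opB_le_limB κf H)
  have hop : opB κf H < θ := (opB_le_limB κf H).trans_lt (hθ.lim H hHθ)
  have ha₀ : Nonempty p.S.N := by
    rw [← mk_ne_zero_iff, p.card]
    exact (aleph0_pos.trans hθ0).ne'
  obtain ⟨a₀⟩ := ha₀
  have hPθ : #(p.S.N ⊕ P) ≤ θ := by
    rw [mk_sum, lift_id, lift_id]
    exact add_le_of_le hθ0.le p.card.le hP.le
  obtain ⟨c', hc'⟩ := exists_real' hK hunb (hs.trans hsH) hHθ.le hJ E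
    ((hθ.thr _ hop).le.trans hE) (hTs.trans hsH) (fun y : T => (y : B)) hPθ (Sum.elim f x)
    (Sum.elim i c) (by
      intro ζ y hζ
      have h1 := hg (limB κf H) (hθ.lim H hHθ) ((hPs.trans hsH).trans hHB)
        ((hs.trans hsH).trans hHB) ζ (fun z => Sum.elim id (fun _ => a₀) (y z)) hζ
      have h2 := EqS.comp h1 (ζ := ζ) (fun z => Sum.elim (fun _ => Sum.inl z)
        (fun q => Sum.inr q) (y z))
      have h3 : ∀ (A : Type u) (g : p.S.N → A) (d : P → A), (fun z => (Sum.elim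
          (fun z => g (Sum.elim id (fun _ => a₀) (y z))) d) ((Sum.elim (fun _ => Sum.inl z)
          (fun q => Sum.inr q) (y z) : ζ ⊕ P))) = fun z => Sum.elim g d (y z) := by
        intro A g d
        funext z
        cases hz : y z with
        | inl a => simp [hz]
        | inr q => rfl
      rw [h3, h3] at h2
      exact h2)
  refine ⟨T, c', hT1, hTθ, subset_union_right.trans hT2, ?_, fun z => ?_⟩
  · -- claim 2
    have h4 := claim2 hK hunb hθ p hs hsH hHθ hH f hf i hi hTs (fun y : T => (y : B)) c' (by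
      intro ι b hι
      exact hc' ι (fun z => Sum.inl (b z)) hι)
    intro ρ hρ hTρ hℓρ ι b hι
    have h5 := h4 (max ρ s) (max_lt hρ hsθ) (le_max_right _ _) ι b (hι.trans (le_max_left _ _))
    refine EqS.mono (hK.1.trans hℓρ) (le_max_left _ _) h5 ?_
    rw [mk_sum, lift_id, lift_id]
    exact add_le_of_le (hK.1.trans hℓρ) hι hTρ
  · have h6 : x z ∈ T := hT2 (Or.inl ⟨z, rfl⟩)
    refine ⟨h6, ?_⟩
    have h7 := hc' P (fun q => Sum.inr q) (hPs.trans hsH)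
    have h8 := h7.1.eq_iff _ ⟨Sum.inr ⟨x z, h6⟩, rfl⟩ _ ⟨Sum.inl z, rfl⟩
    exact h8.1 rfl

/-- Extensions of size `θ` are realized in nice models, with a prescribed small part. -/
theorem exists_over_nice' (hT : ∀ s, ℓ ≤ s → s < θ → ∃ H, s ≤ H ∧ H < θ ∧ TameAt t θ s H)
    {B : Type u} [L.Structure B] (hBc : #B = θ) {J : Type u} [LinearOrder J] (hJ : Nice θ J)
    (E : EM t J) (hE : θ ≤ #E.N) (f : p.S.N ↪[L] B) (hf : K.Emb f) (i : p.S.N ↪[L] E.N)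
    (hi : K.Emb i) {P₀ : Type u} (hP₀ : #P₀ < θ) (x₀ : P₀ → B) (c₀ : P₀ → E.N)
    (hg₀ : GoodFam ℓ p f i x₀ c₀) :
    ∃ g : B ↪[L] E.N, K.Emb g ∧ (∀ a, g (f a) = i a) ∧ ∀ z, g (x₀ z) = c₀ z := by
  classical
  have hθ0 : ℵ₀ < θ := hK.1.trans_lt hθ.lt
  obtain ⟨D, hD1, hD2, hD3⟩ := exists_filtration hBc hθ0.le hθ.cof
  -- the stages
  let St : Type u := {q : Σ T : L.Substructure B, (T → E.N) // K.le q.1 ∧ #q.1 < θ ∧
    GoodFam ℓ p f i (fun y : q.1 => (y : B)) q.2}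
  have h0 : ∃ st : St, D 0 ⊆ (st.1.1 : Set B) ∧
      ∀ z : P₀, ∃ h : x₀ z ∈ st.1.1, st.1.2 ⟨x₀ z, h⟩ = c₀ z := by
    obtain ⟨T, c, h1, h2, h3, h4, h5⟩ := exists_step' hK hunb hθ p hT hJ E hE f hf i hi
      hP₀ x₀ c₀ hg₀ (D 0) (hD2 0)
    exact ⟨⟨⟨T, c⟩, h1, h2, h4⟩, h3, h5⟩
  have hs : ∀ (st : St) (n : ℕ), ∃ st' : St, D n ⊆ (st'.1.1 : Set B) ∧
      ∀ z : st.1.1, ∃ h : (z : B) ∈ st'.1.1, st'.1.2 ⟨z, h⟩ = st.1.2 z := by
    intro st n
    obtain ⟨T, c, h1, h2, h3, h4, h5⟩ := exists_step' hK hunb hθ p hT hJ E hE f hf i hi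
      st.2.2.1 (fun y : st.1.1 => (y : B)) st.1.2 st.2.2.2 (D n) (hD2 n)
    exact ⟨⟨⟨T, c⟩, h1, h2, h4⟩, h3, h5⟩
  obtain ⟨st0, hst0, hst1⟩ := h0
  choose nx hnx1 hnx2 using hs
  let sq : ℕ → St := fun n => Nat.rec st0 (fun n st => nx st (n + 1)) n
  have hsq1 : ∀ n, D n ⊆ ((sq n).1.1 : Set B) := by
    intro n
    cases n with
    | zero => exact hst0
    | succ n => exact hnx1 _ _
  let R : ℕ → Set (B × E.N) := fun n => range fun z : (sq n).1.1 => ((z : B), (sq n).1.2 z)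
  have hR1 : ∀ n, R n ⊆ R (n + 1) := by
    rintro n _ ⟨z, rfl⟩
    obtain ⟨h, h'⟩ := hnx2 (sq n) (n + 1) z
    exact ⟨⟨z, h⟩, Prod.ext rfl h'⟩
  have hRm : Monotone R := monotone_nat_of_le_succ hR1
  have hgood : ∀ n, ∃ ρ, ρ < θ ∧ ℓ ≤ ρ ∧ #(sq n).1.1 ≤ ρ ∧ Good L ρ (R n) := by
    intro n
    refine ⟨max ℓ #(sq n).1.1, max_lt hθ.lt (sq n).2.2.1, le_max_left _ _, le_max_right _ _, ?_⟩
    have h1 := (sq n).2.2.2 (max ℓ #(sq n).1.1) (max_lt hθ.lt (sq n).2.2.1) (le_max_right _ _)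
      (le_max_left _ _) PEmpty.{u + 1} (fun z => z.elim) (by
        rw [mk_pempty]
        exact zero_le)
    refine Good.subset h1 ?_
    rintro _ ⟨z, rfl⟩
    exact ⟨Sum.inr z, rfl⟩
  -- the ranges
  have hrng : ∀ n, ∃ T' : L.Substructure E.N, K.le T' ∧ ∀ y, y ∈ T' ↔ ∃ x, (x, y) ∈ R n := by
    intro n
    obtain ⟨ρ, h1, h2, h3, h4⟩ := hgood n
    obtain ⟨h, h5, -, h6⟩ := exists_emb_of_good hK h2 hf.mem_right E.mem h4 (sq n).1.1
      (sq n).2.1 h3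
    refine ⟨h.toHom.range, h5, fun y => ?_⟩
    constructor
    · rintro ⟨z, rfl⟩
      refine ⟨(z : B), z, Prod.ext rfl ?_⟩
      exact (h6 _ ⟨z, rfl⟩ z.2).symm
    · rintro ⟨x, z, hz⟩
      refine ⟨z, ?_⟩
      have h7 := h6 _ ⟨z, rfl⟩ z.2
      have h8 := congrArg Prod.snd hz
      exact h7.trans h8
  choose T' hT'1 hT'2 using hrng
  have hT'm : Monotone fun n : ULift.{u} ℕ => T' n.down := by
    intro m n hmn y hy
    obtain ⟨x, hx⟩ := (hT'2 _ y).1 hy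
    exact (hT'2 _ y).2 ⟨x, hRm hmn hx⟩
  have hpi : IsPI L (⋃ n : ULift.{u} ℕ, R n.down) :=
    isPI_iUnion (fun n : ULift.{u} ℕ => R n.down) (fun m n h => hRm h) fun n => by
      obtain ⟨ρ, -, -, -, h4⟩ := hgood n.down
      exact h4.1
  have h1 : K.le (⨆ n : ULift.{u} ℕ, T' n.down) :=
    AEC.le_iSup_directed _ hT'm fun n => hT'1 n.down
  have h2 : ∀ y, y ∈ (⨆ n : ULift.{u} ℕ, T' n.down) ↔ ∃ x, (x, y) ∈ ⋃ n : ULift.{u} ℕ, R n.down := by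
    intro y
    rw [Language.Substructure.mem_iSup_of_directed hT'm.directed_le]
    constructor
    · rintro ⟨n, hn⟩
      obtain ⟨x, hx⟩ := (hT'2 _ y).1 hn
      exact ⟨x, mem_iUnion.2 ⟨n, hx⟩⟩
    · rintro ⟨x, hx⟩
      obtain ⟨n, hn⟩ := mem_iUnion.1 hx
      exact ⟨n, (hT'2 _ y).2 ⟨x, hn⟩⟩
  have h3 : ∀ a : B, ∃ y, (a, y) ∈ ⋃ n : ULift.{u} ℕ, R n.down := by
    intro a
    obtain ⟨n, hn⟩ := hD3 a
    exact ⟨_, mem_iUnion.2 ⟨⟨n⟩, ⟨a, hsq1 n hn⟩, rfl⟩⟩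
  obtain ⟨e, he⟩ := hpi.exists_equiv_sub (⊤ : L.Substructure B) (⨆ n : ULift.{u} ℕ, T' n.down) (by
    intro a _
    obtain ⟨y, hy⟩ := h3 a
    exact ⟨y, (h2 y).2 ⟨a, hy⟩, hy⟩) (by
    intro y hy
    obtain ⟨x, hx⟩ := (h2 y).1 hy
    exact ⟨x, trivial, hx⟩)
  let e₀ : B ≃[L] (⊤ : L.Substructure B) := Language.Substructure.topEquiv.symm
  refine ⟨((⨆ n : ULift.{u} ℕ, T' n.down : L.Substructure E.N).subtype.comp e.toEmbedding).comp
    e₀.toEmbedding, AEC.Emb.comp (AEC.Emb.comp (AEC.emb_subtype.2 h1) (AEC.Emb.of_equiv e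
      (K.mem_iso e₀ hf.mem_right))) (AEC.Emb.of_equiv e₀ hf.mem_right), fun a => ?_,
    fun z => ?_⟩
  swap
  · obtain ⟨h5, h6⟩ := hst1 z
    have h7 : (x₀ z, c₀ z) ∈ ⋃ n : ULift.{u} ℕ, R n.down :=
      mem_iUnion.2 ⟨⟨0⟩, ⟨⟨x₀ z, h5⟩, Prod.ext rfl h6⟩⟩
    exact (hpi.eq_iff _ (he ⟨x₀ z, trivial⟩) _ h7).1 rfl
  obtain ⟨n, hn⟩ := hD3 (f a)
  have h4 : f a ∈ (sq n).1.1 := hsq1 n hn
  have h5 : (f a, (sq n).1.2 ⟨f a, h4⟩) ∈ ⋃ n : ULift.{u} ℕ, R n.down :=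
    mem_iUnion.2 ⟨⟨n⟩, ⟨⟨f a, h4⟩, rfl⟩⟩
  have h6 := (hpi.eq_iff _ (he ⟨f a, trivial⟩) _ h5).1 rfl
  refine Eq.trans h6 ?_
  have h7 := (sq n).2.2.2 (max ℓ #(sq n).1.1) (max_lt hθ.lt (sq n).2.2.1) (le_max_right _ _)
    (le_max_left _ _) PUnit.{u + 1} (fun _ => a) (by
      rw [mk_punit]
      exact (one_le_aleph0.trans hK.1).trans (le_max_left _ _))
  exact (h7.1.eq_iff _ ⟨Sum.inr ⟨f a, h4⟩, rfl⟩ _ ⟨Sum.inl PUnit.unit, rfl⟩).1 rfl

/-- Extensions of size `θ` are realized in nice models. -/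
theorem exists_over_nice (hT : ∀ s, ℓ ≤ s → s < θ → ∃ H, s ≤ H ∧ H < θ ∧ TameAt t θ s H)
    {B : Type u} [L.Structure B] (hBc : #B = θ) {J : Type u} [LinearOrder J] (hJ : Nice θ J)
    (E : EM t J) (hE : θ ≤ #E.N) (f : p.S.N ↪[L] B) (hf : K.Emb f) (i : p.S.N ↪[L] E.N)
    (hi : K.Emb i) : ∃ g : B ↪[L] E.N, K.Emb g ∧ ∀ a, g (f a) = i a := by
  obtain ⟨g, h1, h2, -⟩ := exists_over_nice' hK hunb hθ p hT hBc hJ E hE f hf i hi
    (P₀ := PEmpty.{u + 1}) (by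
      rw [mk_pempty]
      exact aleph0_pos.trans (hK.1.trans_lt hθ.lt)) (fun z => z.elim) (fun z => z.elim) (by
      intro ρ hρ _ hℓρ ι b hι
      have h5 := eqS_two hK hunb hθ f i hf hi p.card hρ hℓρ hι b
      refine Good.subset h5 ?_
      rintro _ ⟨z | z, rfl⟩
      · exact ⟨z, rfl⟩
      · exact z.elim)
  exact ⟨g, h1, h2⟩

end

/-- Nice EM models are saturated over submodels of size `θ`. -/
theorem sat_nice (hK : K.IsLS ℓ) (hunb : ∀ ν, ν < κf ν ∧ K.CategoricalIn (κf ν))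
    (hθ : Pt K ℓ κf θ) (hT : ∀ s, ℓ ≤ s → s < θ → ∃ H, s ≤ H ∧ H < θ ∧ TameAt t θ s H)
    {J : Type u} [LinearOrder J] (hJ : Nice θ J) (E : EM t J) (hE : θ ≤ #E.N) :
    Sat K θ E.N := by
  obtain ⟨p⟩ := exists_stPair t hθ.lt.le
  intro A B _ _ i f hi hf hA hB
  obtain ⟨e⟩ := hθ.cat.2 p.S.N A p.S.mem hi.mem_left p.card hA
  obtain ⟨g, hg, hg'⟩ := exists_over_nice hK hunb hθ p hT hB hJ E hE (f.comp e.toEmbedding)
    (AEC.Emb.comp hf (AEC.Emb.of_equiv e p.S.mem)) (i.comp e.toEmbedding)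
    (AEC.Emb.comp hi (AEC.Emb.of_equiv e p.S.mem))
  refine ⟨g, hg, fun a => ?_⟩
  have h1 := hg' (e.symm a)
  change g (f (e (e.symm a))) = i (e (e.symm a)) at h1
  rw [e.apply_symm_apply] at h1
  exact h1

/-- **AB(θ)**. -/
theorem ab_of_tame (hK : K.IsLS ℓ) (hunb : ∀ ν, ν < κf ν ∧ K.CategoricalIn (κf ν))
    (hθ : Pt K ℓ κf θ) (hT : ∀ s, ℓ ≤ s → s < θ → ∃ H, s ≤ H ∧ H < θ ∧ TameAt t θ s H) :
    AB K θ (Vale.Agent.P307.R2.H287.thr κf θ) := by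
  have hθ0 : ℵ₀ ≤ θ := hK.1.trans hθ.lt.le
  obtain ⟨J, _, hJ, hJc⟩ := exists_nice θ (Vale.Agent.P307.R2.H287.thr κf θ)
  obtain ⟨E⟩ := exists_em t J
  have hEc : Vale.Agent.P307.R2.H287.thr κf θ ≤ #E.N := hJc.trans E.le_card
  have hEθ : θ ≤ #E.N := (le_thr hunb θ).trans hEc
  have hs := sat_nice hK hunb hθ hT hJ E hEθ
  -- positions in `E`
  have key : ∀ (A M : Type u) [L.Structure A] [L.Structure M] (f : A ↪[L] M), K.Emb f →
      #A = θ → Vale.Agent.P307.R2.H287.thr κf θ ≤ #M →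
      ∃ f' : A ↪[L] E.N, K.Emb f' ∧ EqS L θ f f' := by
    intro A M _ _ f hf hA hM
    have h1 := good_empty_thr hK hunb hθ.lt.le hf.mem_right E.mem hM hEc
    obtain ⟨h, h2, h3, -⟩ := exists_emb_of_good hK hθ.lt.le hf.mem_right E.mem h1 f.toHom.range hf
      ((mk_congr f.equivRange.toEquiv).symm.trans hA).le
    refine ⟨h.comp f.equivRange.toEmbedding,
      AEC.Emb.comp h2 (AEC.Emb.of_equiv _ hf.mem_left), ?_⟩
    exact EqS.comp h3 (fun a => f.equivRange a)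
  intro A M N _ _ _ f g hf hg hA hM hN
  obtain ⟨f', hf', hff⟩ := key A M f hf hA hM
  obtain ⟨g', hg', hgg⟩ := key A N g hg hA hN
  refine (hff.trans ?_).trans hgg.symm
  obtain ⟨x, hx⟩ := exists_pos_of_emb f' g' hf' hg' hA
  have hRc : ∀ y : Pos K θ E.N E.N, #y.R ≤ θ := by
    intro y
    have h1 : Function.Injective fun q : y.R => (⟨q.1.1, by
        rw [← SetLike.mem_coe, y.fst]
        exact ⟨q.1, q.2, rfl⟩⟩ : y.S) := by
      intro q q' hqq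
      have h2 : q.1.1 = q'.1.1 := congrArg Subtype.val hqq
      exact Subtype.ext (Prod.ext h2 ((y.pi.eq_iff _ q.2 _ q'.2).1 h2))
    exact (mk_le_of_injective h1).trans y.card.le
  refine good_of_system {R | ∃ y : Pos K θ E.N E.N, R = y.R} ?_ ?_ ?_ ⟨x, hx.symm⟩
  · rintro _ ⟨y, rfl⟩
    exact ⟨y.pi, hRc y⟩
  · rintro _ ⟨y, rfl⟩ B hB
    obtain ⟨z, h1, h2⟩ := y.exists_left hK hθ.lt.le E.mem hEθ hs B hB
    refine ⟨z.R, ⟨z, rfl⟩, h1, fun a ha => ?_⟩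
    have h3 := h2 ha
    rw [z.fst] at h3
    obtain ⟨q, hq, rfl⟩ := h3
    exact ⟨q.2, hq⟩
  · rintro _ ⟨y, rfl⟩ B hB
    obtain ⟨z, h1, h2⟩ := y.exists_right hK hθ.lt.le E.mem hEθ hs B hB
    refine ⟨z.R, ⟨z, rfl⟩, h1, fun a ha => ?_⟩
    have h3 := h2 ha
    rw [z.snd] at h3
    obtain ⟨q, hq, rfl⟩ := h3
    exact ⟨q.1, hq⟩

/-- Small tuples over strong submodels of size `θ` with the same small pieces. -/
def SamePieces (L : Language.{u, u}) (ℓ θ : Cardinal.{u}) {A M N : Type u} [L.Structure M]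
    [L.Structure N] (f : A → M) (g : A → N) {ι : Type u} (r : ι → M) (s : ι → N) : Prop :=
  ∀ ν < θ, ℓ ≤ ν → #ι ≤ ν → ∀ (Q : Type u) (a : Q → A), #Q ≤ ν →
    EqS L ν (Sum.elim (fun z => f (a z)) r) (Sum.elim (fun z => g (a z)) s)

/-- Equality of the pieces at one level is enough. -/
theorem samePieces_of_level (hK : K.IsLS ℓ) (hunb : ∀ ν, ν < κf ν ∧ K.CategoricalIn (κf ν))
    (hθ : Pt K ℓ κf θ) {s₀ H : Cardinal.{u}} (hs : ℓ ≤ s₀) (hsH : s₀ ≤ H) (hH : H < θ)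
    (hT : TameAt t θ s₀ H) {A M N : Type u} [L.Structure A] [L.Structure M] [L.Structure N]
    (f : A ↪[L] M) (g : A ↪[L] N) (hf : K.Emb f) (hg : K.Emb g) (hA : #A = θ) {ι : Type u}
    (hι : #ι ≤ s₀) (r : ι → M) (s : ι → N)
    (hrs : ∀ (Q : Type u) (a : Q → A), #Q ≤ H →
      EqS L H (Sum.elim (fun z => f (a z)) r) (Sum.elim (fun z => g (a z)) s)) :
    SamePieces L ℓ θ f g r s := by
  obtain ⟨p⟩ := exists_stPair t hθ.lt.le
  obtain ⟨e⟩ := hθ.cat.2 p.S.N A p.S.mem hf.mem_left p.card hA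
  intro ν hν hℓν hιν Q a hQ
  have hν0 : ℵ₀ ≤ ν := hK.1.trans hℓν
  have h1 := claim2 hK hunb hθ p hs hsH hH hT (f.comp e.toEmbedding)
    (AEC.Emb.comp hf (AEC.Emb.of_equiv e p.S.mem)) (g.comp e.toEmbedding)
    (AEC.Emb.comp hg (AEC.Emb.of_equiv e p.S.mem)) hι r s
    (fun Q b hQ => hrs Q (fun z => e (b z)) hQ) (max ν s₀) (max_lt hν (hsH.trans_lt hH))
    (le_max_right _ _) Q (fun z => e.symm (a z)) (hQ.trans (le_max_left _ _))
  have h2 : ∀ (M : Type u) [L.Structure M] (f : A ↪[L] M), (fun z => f.comp e.toEmbedding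
      (e.symm (a z))) = fun z => f (a z) := by
    intro M _ f
    funext z
    change f (e (e.symm (a z))) = f (a z)
    rw [e.apply_symm_apply]
  rw [h2, h2] at h1
  refine EqS.mono hν0 (le_max_left _ _) h1 ?_
  rw [mk_sum, lift_id, lift_id]
  exact add_le_of_le hν0 hQ hιν

/-- **AB(θ)** with small tuples. -/
theorem ab_plus_of_tame (hK : K.IsLS ℓ) (hunb : ∀ ν, ν < κf ν ∧ K.CategoricalIn (κf ν))
    (hθ : Pt K ℓ κf θ) (hT : ∀ s, ℓ ≤ s → s < θ → ∃ H, s ≤ H ∧ H < θ ∧ TameAt t θ s H)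
    {A M N : Type u} [L.Structure A] [L.Structure M] [L.Structure N] (f : A ↪[L] M)
    (g : A ↪[L] N) (hf : K.Emb f) (hg : K.Emb g) (hA : #A = θ)
    (hM : Vale.Agent.P307.R2.H287.thr κf θ ≤ #M) (hN : Vale.Agent.P307.R2.H287.thr κf θ ≤ #N)
    {ι : Type u} (hι : #ι < θ) (r : ι → M) (s : ι → N) (hrs : SamePieces L ℓ θ f g r s) :
    EqS L θ (Sum.elim f r) (Sum.elim g s) := by
  have hθ0 : ℵ₀ ≤ θ := hK.1.trans hθ.lt.le
  obtain ⟨p⟩ := exists_stPair t hθ.lt.le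
  obtain ⟨J, _, hJ, hJc⟩ := exists_nice θ (Vale.Agent.P307.R2.H287.thr κf θ)
  obtain ⟨E⟩ := exists_em t J
  have hEc : Vale.Agent.P307.R2.H287.thr κf θ ≤ #E.N := hJc.trans E.le_card
  have hEθ : θ ≤ #E.N := (le_thr hunb θ).trans hEc
  have hAB := ab_of_tame hK hunb hθ hT
  -- transfer to `E`
  have key : ∀ (M : Type u) [L.Structure M] (f : A ↪[L] M) (r : ι → M), K.Emb f →
      Vale.Agent.P307.R2.H287.thr κf θ ≤ #M →
      ∃ (f' : A ↪[L] E.N) (r' : ι → E.N), K.Emb f' ∧ EqS L θ (Sum.elim f r) (Sum.elim f' r') := by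
    intro M _ f r hf hM
    obtain ⟨B, hB, hBs, hBc⟩ := exists_sub_card hK hθ.lt.le hf.mem_right
      ((le_thr hunb θ).trans hM) (range f ∪ range r) ((mk_union_le _ _).trans
        (add_le_of_le hθ0 (mk_range_le.trans hA.le) (mk_range_le.trans hι.le)))
    have h1 := good_empty_thr hK hunb hθ.lt.le hf.mem_right E.mem hM hEc
    obtain ⟨h, h2, h3, -⟩ := exists_emb_of_good hK hθ.lt.le hf.mem_right E.mem h1 B hB hBc.le
    obtain ⟨k, hk, hk'⟩ := exists_lift f B.subtype hf (AEC.emb_subtype.2 hB)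
      fun a => ⟨⟨f a, hBs (Or.inl ⟨a, rfl⟩)⟩, rfl⟩
    refine ⟨h.comp k, fun z => h ⟨r z, hBs (Or.inr ⟨z, rfl⟩)⟩, AEC.Emb.comp h2 hk, ?_⟩
    refine Good.subset h3 ?_
    rintro _ ⟨a | z, rfl⟩
    · exact ⟨k a, Prod.ext (hk' a) rfl⟩
    · exact ⟨⟨r z, hBs (Or.inr ⟨z, rfl⟩)⟩, rfl⟩
  obtain ⟨f', r', hf', hff⟩ := key M f r hf hM
  obtain ⟨g', s', hg', hgg⟩ := key N g s hg hN
  refine (hff.trans ?_).trans hgg.symm
  -- the hypothesis in `E`
  have hrs' : SamePieces L ℓ θ f' g' r' s' := by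
    intro ν hν hℓν hιν Q a hQ
    have hν0 : ℵ₀ ≤ ν := hK.1.trans hℓν
    have hQι : #(Q ⊕ ι) ≤ ν := by
      rw [mk_sum, lift_id, lift_id]
      exact add_le_of_le hν0 hQ hιν
    have h1 : ∀ (M : Type u) [L.Structure M] (f : A ↪[L] M) (r : ι → M) (f' : A ↪[L] E.N)
        (r' : ι → E.N), EqS L θ (Sum.elim f r) (Sum.elim f' r') →
        EqS L ν (Sum.elim (fun z => f (a z)) r) (Sum.elim (fun z => f' (a z)) r') := by
      intro M _ f r f' r' h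
      refine Good.mono hν0 hν.le (Good.subset h ?_) (mk_range_le.trans hQι)
      rintro _ ⟨z | z, rfl⟩
      · exact ⟨Sum.inl (a z), rfl⟩
      · exact ⟨Sum.inr z, rfl⟩
    exact ((h1 M f r f' r' hff).symm.trans (hrs ν hν hℓν hιν Q a hQ)).trans
      (h1 N g s g' s' hgg)
  -- a submodel containing everything
  obtain ⟨B, hB, hBs, hBc⟩ := exists_sub_card hK hθ.lt.le E.mem hEθ (range f' ∪ range r')
    ((mk_union_le _ _).trans (add_le_of_le hθ0 (mk_range_le.trans hA.le)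
      (mk_range_le.trans hι.le)))
  obtain ⟨k, hk, hk'⟩ := exists_lift f' B.subtype hf' (AEC.emb_subtype.2 hB)
    fun a => ⟨⟨f' a, hBs (Or.inl ⟨a, rfl⟩)⟩, rfl⟩
  obtain ⟨e⟩ := hθ.cat.2 p.S.N A p.S.mem hf.mem_left p.card hA
  let rB : ι → B := fun z => ⟨r' z, hBs (Or.inr ⟨z, rfl⟩)⟩
  have hBpc : ∀ ρ < θ, ℓ ≤ ρ → Vale.Agent.P307.R2.H287.thr κf ρ ≤ #B := fun ρ hρ _ =>
    (hθ.thr ρ hρ).le.trans hBc.ge
  obtain ⟨G, hG1, hG2, hG3⟩ := exists_over_nice' hK hunb hθ p hT hBc hJ E hEθ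
    (k.comp e.toEmbedding) (AEC.Emb.comp hk (AEC.Emb.of_equiv e p.S.mem))
    (g'.comp e.toEmbedding) (AEC.Emb.comp hg' (AEC.Emb.of_equiv e p.S.mem)) hι rB s' (by
      intro ρ hρ hιρ hℓρ Q b hQ
      have hρ0 : ℵ₀ ≤ ρ := hK.1.trans hℓρ
      have h1 := hrs' ρ hρ hℓρ hιρ Q (fun z => e (b z)) hQ
      have h2 : EqS L ρ (Sum.elim (fun z => k (e (b z))) rB)
          (fun z => B.subtype (Sum.elim (fun z => k (e (b z))) rB z)) :=
        EqS.map_emb hK hunb hℓρ B.subtype (AEC.emb_subtype.2 hB) (hBpc ρ hρ hℓρ) (by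
          rw [mk_sum, lift_id, lift_id]
          exact add_le_of_le hρ0 hQ hιρ) _
      have h3 : (fun z => B.subtype (Sum.elim (fun z => k (e (b z))) rB z)) =
          Sum.elim (fun z => f' (e (b z))) r' := by
        funext z
        rcases z with z | z
        · exact hk' (e (b z))
        · rfl
      rw [h3] at h2
      exact h2.trans h1)
  have h1 := hAB B E.N E.N B.subtype G (AEC.emb_subtype.2 hB) hG1 hBc hEc hEc
  refine Good.subset h1 ?_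
  rintro _ ⟨a | z, rfl⟩
  · refine ⟨k a, Prod.ext (hk' a) ?_⟩
    have h2 := hG2 (e.symm a)
    change G (k (e (e.symm a))) = g' (e (e.symm a)) at h2
    rw [e.apply_symm_apply] at h2
    exact h2
  · exact ⟨rB z, Prod.ext rfl (hG3 z)⟩

end Vale.Agent.P307.R2.H1
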