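import Vale.Agent.P307.R2.H1.Op
import Mathlib.Order.Filter.FilterProduct

set_option linter.unusedSectionVars false

universe u v w

open FirstOrder Cardinal Set

namespace Vale.Agent.P307.R2.H1

open Vale.Agent.P307 Vale.Agent.P307.H304 Vale.Agent.P307.R2.H287 Vale.Agent.P307.H67
  Language.Structure Language.Substructure

section comb

/-- Uniform pair patterns. -/
def Unif {X : Type v} {P : Type w} {I : Type u} [LinearOrder X] [LinearOrder I] (w : X → P → I) :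
    Prop :=
  ∀ x y x' y' : X, (x < y ↔ x' < y') → (y < x ↔ y' < x') → ∀ p q,
    (w x p ≤ w y q ↔ w x' p ≤ w y' q)

theorem Unif.comp {X : Type v} {P : Type w} {I : Type u} [LinearOrder X] [LinearOrder I]
    {w : X → P → I} (h : Unif w) {Y : Type*} [LinearOrder Y] {σ : Y → X} (hσ : StrictMono σ) :
    Unif fun y => w (σ y) := by
  intro x y x' y' h1 h2 p q
  refine h _ _ _ _ ?_ ?_ p q
  · rw [hσ.lt_iff_lt, hσ.lt_iff_lt, h1]
  · rw [hσ.lt_iff_lt, hσ.lt_iff_lt, h2]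

/-- The thinning theorem. -/
theorem exists_thin {c μ : Cardinal.{u}} {X : Type u} [LinearOrder X] [WellFoundedLT X]
    (hX : arrowFn 1 c (arrowFn 2 c μ) ≤ #X) {P I C : Type u} [LinearOrder I] (w : X → P → I)
    (g : X → C) (hc : ℵ₀ ≤ c) (hC : #C ≤ c) (hP : 2 ^ (#P * #P) ≤ c) :
    ∃ H : Set X, μ ≤ #H ∧ (∀ x ∈ H, ∀ y ∈ H, g x = g y) ∧ Unif (fun x : H => w x) := by
  have hS : #(Set (P × P)) ≤ c := by
    rw [mk_set, mk_prod, lift_id]
    exact hP
  obtain ⟨H₁, h1, h2⟩ := arrowFn_spec 1 c (arrowFn 2 c μ) (Set (P × P) × C) (by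
    rw [mk_prod, lift_id, lift_id]
    exact (mul_le_mul' hS hC).trans (mul_eq_self hc).le) X hX
    (fun a => ({p | w (a 0) p.1 ≤ w (a 0) p.2}, g (a 0)))
  obtain ⟨H, h3, h4⟩ := arrowFn_spec 2 c μ (Set (P × P) × Set (P × P)) (by
    rw [mk_prod, lift_id]
    exact (mul_le_mul' hS hS).trans (mul_eq_self hc).le) H₁ h1
    (fun a => ({p | w (a 0) p.1 ≤ w (a 1) p.2}, {p | w (a 1) p.1 ≤ w (a 0) p.2}))
  have hone : ∀ x ∈ H₁, ∀ y ∈ H₁, ((({p | w x p.1 ≤ w x p.2} : Set (P × P)), g x) :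
      Set (P × P) × C) = ({p | w y p.1 ≤ w y p.2}, g y) := by
    intro x hx y hy
    exact h2 (fun _ => x) (fun _ => y) (Subsingleton.strictMono _) (Subsingleton.strictMono _)
      (fun _ => hx) (fun _ => hy)
  have hlt : ∀ x ∈ H, ∀ y ∈ H, x < y → ∀ x' ∈ H, ∀ y' ∈ H, x' < y' →
      ∀ p q, (w x p ≤ w y q ↔ w x' p ≤ w y' q) ∧ (w y p ≤ w x q ↔ w y' p ≤ w x' q) := by
    intro x hx y hy hxy x' hx' y' hy' hxy' p q
    have hm : ∀ a b : H₁, a < b → StrictMono ![a, b] := by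
      intro a b hab
      rw [Fin.strictMono_iff_lt_succ]
      intro i
      have : i = 0 := Subsingleton.elim _ _
      subst this
      exact hab
    have h5 := h4 ![x, y] ![x', y'] (hm _ _ hxy) (hm _ _ hxy') (fun i => by
      fin_cases i
      · exact hx
      · exact hy) (fun i => by
      fin_cases i
      · exact hx'
      · exact hy')
    have h6 := congrArg Prod.fst h5
    have h7 := congrArg Prod.snd h5
    constructor
    · have h8 : (p, q) ∈ ({p | w x p.1 ≤ w y p.2} : Set (P × P)) ↔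
          (p, q) ∈ ({p | w x' p.1 ≤ w y' p.2} : Set (P × P)) := by
        exact (Set.ext_iff.1 h6) (p, q)
      exact h8
    · have h8 : (p, q) ∈ ({p | w y p.1 ≤ w x p.2} : Set (P × P)) ↔
          (p, q) ∈ ({p | w y' p.1 ≤ w x' p.2} : Set (P × P)) := by
        exact (Set.ext_iff.1 h7) (p, q)
      exact h8
  refine ⟨Subtype.val '' H, ?_, ?_, ?_⟩
  · rw [mk_image_eq Subtype.val_injective]
    exact h3
  · rintro _ ⟨x, hx, rfl⟩ _ ⟨y, hy, rfl⟩
    exact congrArg Prod.snd (hone x x.2 y y.2)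
  · rintro ⟨_, x, hx, rfl⟩ ⟨_, y, hy, rfl⟩ ⟨_, x', hx', rfl⟩ ⟨_, y', hy', rfl⟩ h5 h6 p q
    change x < y ↔ x' < y' at h5
    change y < x ↔ y' < x' at h6
    rcases lt_trichotomy x y with h | h | h
    · exact (hlt x hx y hy h x' hx' y' hy' (h5.1 h) p q).1
    · subst h
      have h7 : x' = y' := le_antisymm (not_lt.1 fun h => lt_irrefl _ (h6.2 h))
        (not_lt.1 fun h => lt_irrefl _ (h5.2 h))
      subst h7
      have h8 : (p, q) ∈ ({p | w x p.1 ≤ w x p.2} : Set (P × P)) ↔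
          (p, q) ∈ ({p | w x' p.1 ≤ w x' p.2} : Set (P × P)) :=
        (Set.ext_iff.1 (congrArg Prod.fst (hone x x.2 x' x'.2))) (p, q)
      exact h8
    · exact (hlt y hy x hx h y' hy' x' hx' (h6.1 h) p q).2

/-- Small subsets are bounded. -/
def Dir (μ : Cardinal.{u}) (X : Type u) [LT X] : Prop := ∀ s : Set X, #s ≤ μ → ∃ x, ∀ y ∈ s, y < x

theorem dir_succTy {μ : Cardinal.{u}} (hμ : ℵ₀ ≤ μ) : Dir μ (SuccTy μ) :=
  fun s hs => exists_gt_of_small hμ s hs

theorem Dir.mono {μ μ' : Cardinal.{u}} {X : Type u} [LT X] (h : Dir μ' X) (hμ : μ ≤ μ') :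
    Dir μ X := fun s hs => h s (hs.trans hμ)

theorem Unif.ev_const {μ : Cardinal.{u}} {X P Q I : Type u} [LinearOrder X] [LinearOrder I]
    {w : X → P → I} (h : Unif w) (hX : Dir μ X) (hPQ : #(P × Q) ≤ μ) (v : Q → I) :
    ∃ x₀, ∀ x, x₀ ≤ x → ∀ x', x₀ ≤ x' → ∀ p q, (w x p ≤ v q ↔ w x' p ≤ v q) ∧
      (v q ≤ w x p ↔ v q ≤ w x' p) := by
  have hne : Nonempty X := ⟨(hX ∅ (by simp)).choose⟩
  -- monotone or antitone predicates
  have key : ∀ φ : X → Prop, ((∀ x y, x ≤ y → φ x → φ y) ∨ (∀ x y, x ≤ y → φ y → φ x)) →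
      ∃ x₀, ∀ x, x₀ ≤ x → ∀ x', x₀ ≤ x' → (φ x ↔ φ x') := by
    rintro φ (h1 | h1)
    · by_cases h2 : ∃ x, φ x
      · obtain ⟨x₀, h3⟩ := h2
        exact ⟨x₀, fun x hx x' hx' => ⟨fun _ => h1 _ _ hx' h3, fun _ => h1 _ _ hx h3⟩⟩
      · push Not at h2
        exact ⟨hne.some, fun x _ x' _ => ⟨fun h => absurd h (h2 x), fun h => absurd h (h2 x')⟩⟩
    · by_cases h2 : ∃ x, ¬ φ x
      · obtain ⟨x₀, h3⟩ := h2
        exact ⟨x₀, fun x hx x' hx' => ⟨fun h => absurd (h1 _ _ hx h) h3,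
          fun h => absurd (h1 _ _ hx' h) h3⟩⟩
      · push Not at h2
        exact ⟨hne.some, fun x _ x' _ => ⟨fun _ => h2 x', fun _ => h2 x⟩⟩
  have hmono : ∀ p, (∀ x y, x ≤ y → w x p ≤ w y p) ∨ (∀ x y, x ≤ y → w y p ≤ w x p) := by
    intro p
    by_cases h1 : ∃ x y : X, x < y ∧ w x p ≤ w y p
    · obtain ⟨x, y, hxy, h2⟩ := h1
      left
      intro x' y' hxy'
      rcases hxy'.lt_or_eq with h3 | rfl
      · exact (h x y x' y' ⟨fun _ => h3, fun _ => hxy⟩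
          ⟨fun h => absurd h hxy.not_gt, fun h => absurd h h3.not_gt⟩ p p).1 h2
      · exact le_rfl
    · push Not at h1
      right
      intro x y hxy
      rcases hxy.lt_or_eq with h3 | rfl
      · exact (h1 x y h3).le
      · exact le_rfl
  have h1 : ∀ pq : P × Q, ∃ x₀, ∀ x, x₀ ≤ x → ∀ x', x₀ ≤ x' →
      (w x pq.1 ≤ v pq.2 ↔ w x' pq.1 ≤ v pq.2) ∧ (v pq.2 ≤ w x pq.1 ↔ v pq.2 ≤ w x' pq.1) := by
    intro pq
    obtain ⟨x₁, hx₁⟩ := key (fun x => w x pq.1 ≤ v pq.2) (by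
      rcases hmono pq.1 with h2 | h2
      · exact Or.inr fun x y hxy h3 => (h2 x y hxy).trans h3
      · exact Or.inl fun x y hxy h3 => (h2 x y hxy).trans h3)
    obtain ⟨x₂, hx₂⟩ := key (fun x => v pq.2 ≤ w x pq.1) (by
      rcases hmono pq.1 with h2 | h2
      · exact Or.inl fun x y hxy h3 => h3.trans (h2 x y hxy)
      · exact Or.inr fun x y hxy h3 => h3.trans (h2 x y hxy))
    exact ⟨max x₁ x₂, fun x hx x' hx' => ⟨hx₁ x ((le_max_left _ _).trans hx) x'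
      ((le_max_left _ _).trans hx'), hx₂ x ((le_max_right _ _).trans hx) x'
      ((le_max_right _ _).trans hx')⟩⟩
  choose f hf using h1
  obtain ⟨x₀, hx₀⟩ := hX (range f) (mk_range_le.trans hPQ)
  exact ⟨x₀, fun x hx x' hx' p q => hf (p, q) x ((hx₀ _ ⟨_, rfl⟩).le.trans hx) x'
    ((hx₀ _ ⟨_, rfl⟩).le.trans hx')⟩

theorem exists_strictMono {X W : Type u} [LinearOrder X] [WellFoundedLT X] [Preorder W]
    {μ : Cardinal.{u}} (hμ : ℵ₀ ≤ μ) (hX : ∀ x : X, #(Iio x) ≤ μ) (hW : Dir μ W) (x₀ : W) :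
    ∃ f : X → W, StrictMono f ∧ ∀ x, x₀ < f x := by
  have h1 : ∀ (x : X) (g : ∀ y : X, y < x → W), ∃ z : W, x₀ < z ∧ ∀ y (hy : y < x), g y hy < z := by
    intro x g
    obtain ⟨z, hz⟩ := hW (insert x₀ (range fun y : Iio x => g y.1 y.2))
      (mk_insert_le.trans (add_le_of_le hμ (mk_range_le.trans (hX x)) (one_le_aleph0.trans hμ)))
    exact ⟨z, hz _ (Or.inl rfl), fun y hy => hz _ (Or.inr ⟨⟨y, hy⟩, rfl⟩)⟩
  choose F hF using h1
  let f : X → W := WellFounded.fix (r := (· < ·)) wellFounded_lt F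
  have hf : ∀ x, f x = F x fun y _ => f y := fun x => WellFounded.fix_eq _ _ x
  refine ⟨f, fun x y hxy => ?_, fun x => ?_⟩
  · rw [hf y]
    exact (hF y fun z _ => f z).2 x hxy
  · rw [hf x]
    exact (hF x _).1

theorem exists_strictMono_of_card {W : Type u} [LinearOrder W] [WellFoundedLT W]
    {c : Cardinal.{u}} (h : c ≤ #W) : ∃ f : c.ord.ToType → W, StrictMono f := by
  have h1 : Ordinal.type (α := c.ord.ToType) (· < ·) ≤ Ordinal.type (α := W) (· < ·) := by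
    rw [Ordinal.type_toType, ord_le, Ordinal.card_type]
    exact h
  obtain ⟨e⟩ := Ordinal.type_le_iff.1 h1
  exact ⟨e, fun x y hxy => e.map_rel_iff.2 hxy⟩

end comb

section em

variable {L : Language.{u, u}} {K : AEC L} {ℓ : Cardinal.{u}} {κf : Cardinal.{u} → Cardinal.{u}}

theorem EqS.exists_ext {μ : Cardinal.{u}} {M N : Type u} [L.Structure M] [L.Structure N]
    {ι ζ : Type u} {a : ι → M} {b : ι → N} (h : EqS L μ a b) (hζ : #ζ ≤ μ) (c : ζ → M) :
    ∃ d : ζ → N, EqS L μ (Sum.elim a c) (Sum.elim b d) := by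
  obtain ⟨R', h1, h2, h3⟩ := Good.exists_left h (range c) (mk_range_le.trans hζ)
  choose d hd using fun z => h3 _ ⟨z, rfl⟩
  refine ⟨d, h2.subset ?_⟩
  rintro _ ⟨i | z, rfl⟩
  · exact h1 ⟨i, rfl⟩
  · exact hd z

theorem EqS.comp {μ : Cardinal.{u}} {M N : Type u} [L.Structure M] [L.Structure N]
    {ι ζ : Type u} {a : ι → M} {b : ι → N} (h : EqS L μ a b) (f : ζ → ι) :
    EqS L μ (fun z => a (f z)) (fun z => b (f z)) := by
  refine Good.subset h ?_
  rintro _ ⟨z, rfl⟩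
  exact ⟨f z, rfl⟩

/-- The small relation given by two tuples and a relation. -/
theorem good_union_iff {ν : Cardinal.{u}} {M N : Type u} [L.Structure M] [L.Structure N]
    {ι : Type u} {c : ι → M} {c' : ι → N} {Y : Set (M × N)} :
    Good L ν (Y ∪ range fun i => (c i, c' i)) ↔
      EqS L ν (Sum.elim (fun p : Y => p.1.1) c) (Sum.elim (fun p : Y => p.1.2) c') := by
  have h1 : (Y ∪ range fun i => (c i, c' i)) = range fun k : Y ⊕ ι =>
      (Sum.elim (fun p : Y => p.1.1) c k, Sum.elim (fun p : Y => p.1.2) c' k) := by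
    ext p
    constructor
    · rintro (h | ⟨i, rfl⟩)
      · exact ⟨Sum.inl ⟨p, h⟩, rfl⟩
      · exact ⟨Sum.inr i, rfl⟩
    · rintro ⟨p | i, rfl⟩
      · exact Or.inl p.2
      · exact Or.inr ⟨i, rfl⟩
  unfold EqS
  rw [h1]

/-- Uniform sequences of tuples in an EM model. -/
def IsUnif {t : Tpl K ℓ} {I : Type u} [LinearOrder I] (E : EM t I) {X : Type u} [LinearOrder X]
    {ι : Type u} (a : X → ι → E.N) : Prop :=
  ∃ (s : ι → (exLang L t.Λ).Term (ι × ULift.{u} ℕ)) (w : X → ι × ULift.{u} ℕ → I),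
    (∀ x i, (s i).realize (fun p => E.c (w x p)) = a x i) ∧ Unif w

section

variable {t : Tpl K ℓ} {I : Type u} [LinearOrder I] {E : EM t I}

theorem IsUnif.comp {X Y ι : Type u} [LinearOrder X] [LinearOrder Y] {a : X → ι → E.N}
    (h : IsUnif E a) {σ : Y → X} (hσ : StrictMono σ) : IsUnif E fun y => a (σ y) := by
  obtain ⟨s, w, h1, h2⟩ := h
  exact ⟨s, fun y => w (σ y), fun y i => h1 _ i, h2.comp hσ⟩

theorem mk_prod_nat_le {ν : Cardinal.{u}} (hν : ℵ₀ ≤ ν) {ι : Type u} (hι : #ι ≤ ν) :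
    #(ι × ULift.{u} ℕ) ≤ ν := by
  have hN : #(ULift.{u} ℕ) ≤ ν := by
    rw [mk_uLift, mk_nat, lift_aleph0]
    exact hν
  rw [mk_prod, lift_id, lift_id]
  exact (mul_le_mul' hι hN).trans (mul_eq_self hν).le

theorem mk_prod_le {ν : Cardinal.{u}} (hν : ℵ₀ ≤ ν) {ι ζ : Type u} (hι : #ι ≤ ν) (hζ : #ζ ≤ ν) :
    #(ι × ζ) ≤ ν := by
  rw [mk_prod, lift_id, lift_id]
  exact (mul_le_mul' hι hζ).trans (mul_eq_self hν).le

/-- Subsequences of the same order type of a uniform sequence have the same type. -/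
theorem IsUnif.eqS (hK : K.IsLS ℓ) (hunb : ∀ ν, ν < κf ν ∧ K.CategoricalIn (κf ν))
    {ν : Cardinal.{u}} (hℓ : ℓ ≤ ν) (hE : thr κf ν ≤ #E.N) {X ι : Type u} [LinearOrder X]
    {a : X → ι → E.N} (h : IsUnif E a) (hι : #ι ≤ ν) {Q : Type u} (hQ : #Q ≤ ν) (σ σ' : Q → X)
    (hσ : ∀ q q', σ q < σ q' ↔ σ' q < σ' q') :
    EqS L ν (fun p : Q × ι => a (σ p.1) p.2) (fun p : Q × ι => a (σ' p.1) p.2) := by
  obtain ⟨s, w, h1, h2⟩ := h
  have hν : ℵ₀ ≤ ν := t.hν.trans hℓ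
  have h3 := eqS_pat hK hunb hℓ E E hE hE (Q := Q × (ι × ULift.{u} ℕ))
    (mk_prod_le hν hQ (mk_prod_nat_le hν hι)) (fun p => w (σ p.1) p.2) (fun p => w (σ' p.1) p.2)
    (fun p q => h2 _ _ _ _ (hσ _ _) (hσ _ _) _ _) (mk_prod_le hν hQ hι)
    (fun p : Q × ι => (s p.2).relabel fun k => (p.1, k))
  have h4 : ∀ τ : Q → X, (fun p : Q × ι => ((s p.2).relabel fun k =>
      (p.1, k)).realize fun q : Q × (ι × ULift.{u} ℕ) => E.c (w (τ q.1) q.2)) =
      fun p : Q × ι => a (τ p.1) p.2 := by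
    intro τ
    funext p
    rw [Language.Term.realize_relabel]
    exact h1 (τ p.1) p.2
  rw [h4, h4] at h3
  exact h3

/-- The thinning of a sequence. -/
theorem exists_isUnif {c μ : Cardinal.{u}} {X : Type u} [LinearOrder X] [WellFoundedLT X]
    (hX : arrowFn 1 c (arrowFn 2 c μ) ≤ #X) {ι : Type u} (hc : 2 ^ (max ℓ #ι) ≤ c)
    (hne : Nonempty I) (a : X → ι → E.N) :
    ∃ H : Set X, μ ≤ #H ∧ IsUnif E fun x : H => a x := by
  classical
  choose s q hsq using exists_nat_term E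
  have hm : ℵ₀ ≤ max ℓ #ι := t.hν.trans (le_max_left _ _)
  have hι : #ι ≤ max ℓ #ι := le_max_right _ _
  obtain ⟨H, h1, h2, h3⟩ := exists_thin (c := c) (μ := μ) hX
    (fun x (p : ι × ULift.{u} ℕ) => q (a x p.1) p.2) (fun x i => s (a x i))
    (hm.trans ((cantor _).le.trans hc)) (by
      have h1 : #(ι → (exLang L t.Λ).Term (ULift.{u} ℕ)) =
          #((exLang L t.Λ).Term (ULift.{u} ℕ)) ^ #ι := by simp
      rw [h1]
      refine le_trans ?_ hc
      have h2 : #((exLang L t.Λ).Term (ULift.{u} ℕ)) ≤ 2 ^ (max ℓ #ι) :=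
        (mk_term_le hm (t.hx.trans (le_max_left _ _)) _ (by
          rw [mk_uLift, mk_nat, lift_aleph0]
          exact hm)).trans (cantor _).le
      refine (power_le_power_right h2).trans ?_
      rw [← power_mul]
      refine power_le_power_left two_ne_zero ?_
      exact (mul_le_mul' le_rfl hι).trans (mul_eq_self hm).le) (by
      refine le_trans (power_le_power_left two_ne_zero ?_) hc
      exact (mul_le_mul' (mk_prod_nat_le hm hι) (mk_prod_nat_le hm hι)).trans (mul_eq_self hm).le)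
  refine ⟨H, h1, ?_⟩
  have hHne : (H.Nonempty) ∨ H = ∅ := (Set.eq_empty_or_nonempty H).symm
  rcases hHne with ⟨x₀, hx₀⟩ | hH
  · refine ⟨fun i => (s (a x₀ i)).relabel fun k => (i, k), fun x p => q (a x p.1) p.2, ?_, h3⟩
    intro x i
    rw [Language.Term.realize_relabel]
    have h4 : s (a x₀ i) = s (a x i) := congrFun (h2 x₀ hx₀ x x.2) i
    rw [h4]
    exact hsq (a x i)
  · subst hH
    exact ⟨fun i => (Language.Term.var (i, ⟨0⟩)), fun x => x.2.elim, fun x => x.2.elim,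
      fun x => x.2.elim⟩

/-- Types over fixed small tuples are eventually constant along a uniform sequence. -/
theorem IsUnif.ev_const (hK : K.IsLS ℓ) (hunb : ∀ ν, ν < κf ν ∧ K.CategoricalIn (κf ν))
    {ν : Cardinal.{u}} (hℓ : ℓ ≤ ν) (hE : thr κf ν ≤ #E.N) {X ι ζ : Type u} [LinearOrder X]
    (hX : Dir ν X) {a : X → ι → E.N} (h : IsUnif E a) (hι : #ι ≤ ν) (hζ : #ζ ≤ ν)
    (hne : Nonempty I) (y : ζ → E.N) :
    ∃ x₀, ∀ x, x₀ ≤ x → ∀ x', x₀ ≤ x' → EqS L ν (Sum.elim y (a x)) (Sum.elim y (a x')) := by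
  obtain ⟨s, w, h1, h2⟩ := h
  have hν : ℵ₀ ≤ ν := t.hν.trans hℓ
  choose sy qy hsq using exists_nat_term E
  obtain ⟨x₀, hx₀⟩ := h2.ev_const hX (Q := ζ × ULift.{u} ℕ)
    (mk_prod_le hν (mk_prod_nat_le hν hι) (mk_prod_nat_le hν hζ)) (fun p => qy (y p.1) p.2)
  refine ⟨x₀, fun x hx x' hx' => ?_⟩
  have hQ : #((ζ × ULift.{u} ℕ) ⊕ (ι × ULift.{u} ℕ)) ≤ ν := by
    rw [mk_sum, lift_id, lift_id]
    exact add_le_of_le hν (mk_prod_nat_le hν hζ) (mk_prod_nat_le hν hι)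
  have hζι : #(ζ ⊕ ι) ≤ ν := by
    rw [mk_sum, lift_id, lift_id]
    exact add_le_of_le hν hζ hι
  let tm : ζ ⊕ ι → (exLang L t.Λ).Term ((ζ × ULift.{u} ℕ) ⊕ (ι × ULift.{u} ℕ)) := Sum.elim
    (fun z => (sy (y z)).relabel fun k => Sum.inl (z, k)) (fun i => (s i).relabel Sum.inr)
  let wf : X → (ζ × ULift.{u} ℕ) ⊕ (ι × ULift.{u} ℕ) → I := fun x =>
    Sum.elim (fun p => qy (y p.1) p.2) (w x)
  have h3 := eqS_pat hK hunb hℓ E E hE hE hQ (wf x) (wf x') (by
    rintro (p | p) (q | q)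
    · exact Iff.rfl
    · exact (hx₀ x hx x' hx' q p).2
    · exact (hx₀ x hx x' hx' p q).1
    · exact h2 x x x' x' (by simp) (by simp) p q) hζι tm
  have h4 : ∀ x : X, (fun i => (tm i).realize fun p => E.c (wf x p)) = Sum.elim y (a x) := by
    intro x
    funext i
    rcases i with z | i
    · change ((sy (y z)).relabel fun k => (Sum.inl (z, k) :
        (ζ × ULift.{u} ℕ) ⊕ (ι × ULift.{u} ℕ))).realize _ = y z
      rw [Language.Term.realize_relabel]
      exact hsq (y z)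
    · change ((s i).relabel Sum.inr).realize _ = a x i
      rw [Language.Term.realize_relabel]
      exact h1 x i
  rw [h4, h4] at h3
  exact h3

end

/-- The length of the basic recursion. -/
noncomputable def limL (κf : Cardinal.{u} → Cardinal.{u}) (ν : Cardinal.{u}) : Cardinal.{u} :=
  arrowFn 1 (2 ^ ν) (arrowFn 2 (2 ^ ν) (Order.succ (Order.succ (opB κf ν))))

/-- The size of the pieces which have to be realized. -/
noncomputable def limB (κf : Cardinal.{u} → Cardinal.{u}) (ν : Cardinal.{u}) : Cardinal.{u} :=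
  2 ^ max (limL κf ν) (Order.succ (opB κf ν))

theorem le_opB (hunb : ∀ ν, ν < κf ν ∧ K.CategoricalIn (κf ν)) (ν : Cardinal.{u}) :
    ν ≤ opB κf ν := (le_thr hunb ν).trans (thr_le_opB κf ν)

theorem opB_le_limB (κf : Cardinal.{u} → Cardinal.{u}) (ν : Cardinal.{u}) :
    opB κf ν ≤ limB κf ν :=
  ((Order.le_succ _).trans (le_max_right _ _)).trans (cantor _).le

/-- **Convergent sequences.** A locally consistent type has a uniform sequence converging to it. -/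
theorem exists_lim (hK : K.IsLS ℓ) (hunb : ∀ ν, ν < κf ν ∧ K.CategoricalIn (κf ν))
    {ν : Cardinal.{u}} (hℓ : ℓ ≤ ν) {t : Tpl K ℓ} {I : Type u} [LinearOrder I] (hne : Nonempty I)
    (E : EM t I) (hE : thr κf (opB κf ν) ≤ #E.N) {M : Type u} [L.Structure M] {ι : Type u}
    (hι : #ι ≤ ν) (c : ι → M) (G : Set (M × E.N)) (P₀ : Set (ι → E.N))
    (hG : ∀ Y ⊆ G, #Y ≤ limB κf ν → ∃ c' ∈ P₀, ∀ Y' ⊆ Y, #Y' ≤ ν →
      Good L ν (Y' ∪ range fun i => (c i, c' i))) :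
    ∃ a : SuccTy (opB κf ν) → ι → E.N, IsUnif E a ∧ (∀ x, a x ∈ P₀) ∧
      ∀ Y ⊆ G, #Y ≤ ν → ∃ x₀, ∀ x, x₀ ≤ x → Good L ν (Y ∪ range fun i => (c i, a x i)) := by
  classical
  let μ := opB κf ν
  have hν : ℵ₀ ≤ ν := hK.1.trans hℓ
  have hνμ : ν ≤ μ := le_opB hunb ν
  have hμ : ℵ₀ ≤ μ := hν.trans hνμ
  have hμE : μ ≤ #E.N := (le_thr hunb μ).trans hE
  have hthrE : thr κf ν ≤ #E.N := (thr_le_opB κf ν).trans hμE
  let gd : (ι → E.N) → Set (M × E.N) → Prop := fun a Y => Good L ν (Y ∪ range fun i => (c i, a i))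
  -- the witnesses
  have hwit : ∀ a : SuccTy μ → ι → E.N, ∃ Y : Set (M × E.N), Y ⊆ G ∧ #Y ≤ ν ∧
      ((∃ Y ⊆ G, #Y ≤ ν ∧ ¬ ∃ x₀, ∀ x, x₀ ≤ x → gd (a x) Y) →
        ¬ ∃ x₀, ∀ x, x₀ ≤ x → gd (a x) Y) := by
    intro a
    by_cases h : ∃ Y ⊆ G, #Y ≤ ν ∧ ¬ ∃ x₀, ∀ x, x₀ ≤ x → gd (a x) Y
    · obtain ⟨Y, h1, h2, h3⟩ := h
      exact ⟨Y, h1, h2, fun _ => h3⟩
    · exact ⟨∅, empty_subset _, by simp, fun h' => absurd h' h⟩
  choose wit hw1 hw2 hw3 using hwit
  -- the recursion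
  let X' : Type u := (limL κf ν).ord.ToType
  have hX' : #X' = limL κf ν := by simp [X']
  have hstep : ∀ (j : X') (g : ∀ k : X', k < j → ι → E.N), ∃ c' ∈ P₀,
      ∀ σ : SuccTy μ → Iio j, gd c' (wit fun x => g (σ x).1 (σ x).2) := by
    intro j g
    obtain ⟨c', h1, h2⟩ := hG (⋃ σ : SuccTy μ → Iio j, wit fun x => g (σ x).1 (σ x).2)
      (iUnion_subset fun σ => hw1 _) (by
        let B := max (limL κf ν) (Order.succ μ)
        have hB : ℵ₀ ≤ B := (hμ.trans (Order.le_succ μ)).trans (le_max_right _ _)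
        refine (mk_iUnion_le _).trans ?_
        have h3 : #(SuccTy μ → Iio j) ≤ 2 ^ B := by
          have h4 : #(SuccTy μ → Iio j) = #(Iio j) ^ #(SuccTy μ) := by simp
          rw [h4]
          have h5 : #(Iio j) ≤ 2 ^ B :=
            ((mk_set_le _).trans (hX'.le.trans (le_max_left _ _))).trans (cantor B).le
          have h6 : #(SuccTy μ) ≤ B := by
            rw [mk_toType, card_ord]
            exact le_max_right _ _
          refine (power_le_power_right h5).trans ?_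
          rw [← power_mul]
          refine power_le_power_left two_ne_zero ?_
          exact (mul_le_mul' le_rfl h6).trans (mul_eq_self hB).le
        have h4 : (⨆ σ : SuccTy μ → Iio j, #(wit fun x => g (σ x).1 (σ x).2)) ≤ 2 ^ B :=
          ciSup_le' fun σ => (hw2 _).trans
            (((hνμ.trans (Order.le_succ μ)).trans (le_max_right _ _)).trans (cantor B).le)
        exact (mul_le_mul' h3 h4).trans (mul_eq_self (hB.trans (cantor B).le)).le)
    exact ⟨c', h1, fun σ => h2 _ (subset_iUnion (fun σ : SuccTy μ → Iio j =>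
      wit fun x => g (σ x).1 (σ x).2) σ) (hw2 _)⟩
  choose F hF1 hF2 using hstep
  let α : X' → ι → E.N := WellFounded.fix (r := (· < ·)) wellFounded_lt F
  have hα : ∀ x, α x = F x fun y _ => α y := fun x => WellFounded.fix_eq _ _ x
  have hα1 : ∀ x, α x ∈ P₀ := fun x => by
    rw [hα x]
    exact hF1 _ _
  have hα2 : ∀ (j : X') (σ : SuccTy μ → Iio j), gd (α j) (wit fun x => α (σ x).1) := by
    intro j σ
    rw [hα j]
    exact hF2 j (fun y _ => α y) σ
  -- thinning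
  obtain ⟨H, hH, hu⟩ := exists_isUnif (E := E) (c := 2 ^ ν) (μ := Order.succ (Order.succ μ))
    (X := X') hX'.ge (ι := ι) (power_le_power_left two_ne_zero (max_le hℓ hι)) hne α
  obtain ⟨e, he⟩ := exists_strictMono_of_card hH
  have hsμ : ℵ₀ ≤ Order.succ μ := hμ.trans (Order.le_succ μ)
  have hD1 : Dir (Order.succ μ) (SuccTy (Order.succ μ)) := dir_succTy hsμ
  obtain ⟨z₀, -⟩ := hD1 ∅ (by simp)
  obtain ⟨f, hf, -⟩ := exists_strictMono (X := SuccTy μ) (W := SuccTy (Order.succ μ)) hμ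
    (fun x => mk_Iio_succTy x) (hD1.mono (Order.le_succ μ)) z₀
  obtain ⟨δ, hδ⟩ := hD1 (range f) (mk_range_le.trans (by rw [mk_toType, card_ord]))
  let s : SuccTy μ → H := fun x => e (f x)
  have hs : StrictMono s := he.comp hf
  let a : SuccTy μ → ι → E.N := fun x => α (s x)
  have ha : IsUnif E a := hu.comp hs
  refine ⟨a, ha, fun x => hα1 _, fun Y hY hYν => ?_⟩
  by_contra hbad
  have hw := hw3 a ⟨Y, hY, hYν, hbad⟩
  have hY1 : #(wit a) ≤ ν := hw2 a
  obtain ⟨x₀, hx₀⟩ := ha.ev_const hK hunb hℓ hthrE ((dir_succTy hμ).mono hνμ) hι hY1 hne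
    (fun p : wit a => p.1.2)
  have hbad1 : ∀ x, x₀ ≤ x → ¬ gd (a x) (wit a) := by
    intro x hx hgd
    refine hw ⟨x₀, fun x' hx' => ?_⟩
    exact good_union_iff.2 ((good_union_iff.1 hgd).trans (hx₀ x hx x' hx'))
  have hgood : ∀ z, δ ≤ z → gd (α (e z)) (wit a) := by
    intro z hz
    exact hα2 (e z) fun x => ⟨s x, he ((hδ _ ⟨x, rfl⟩).trans_le hz)⟩
  -- the order
  let X : Type u := μ.ord.ToType
  have hX : #X = μ := by simp [X]
  have hXI : ∀ x : X, #(Iio x) ≤ μ := fun x => (mk_set_le _).trans hX.le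
  obtain ⟨f', hf', hf'2⟩ := exists_strictMono (X := X) hμ hXI (dir_succTy hμ) x₀
  obtain ⟨g', hg', hg'2⟩ := exists_strictMono (X := X) hμ hXI (hD1.mono (Order.le_succ μ)) δ
  let σ : X → X → H := fun γ x => if x < γ then s (f' x) else e (g' x)
  have hσ : ∀ γ, StrictMono (σ γ) := by
    intro γ x y hxy
    change (if x < γ then s (f' x) else e (g' x)) < if y < γ then s (f' y) else e (g' y)
    by_cases hy : y < γ
    · rw [if_pos hy, if_pos (hxy.trans hy)]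
      exact hs (hf' hxy)
    · rw [if_neg hy]
      by_cases hx : x < γ
      · rw [if_pos hx]
        exact he ((hδ _ ⟨_, rfl⟩).trans (hg'2 y))
      · rw [if_neg hx]
        exact he (hg' hxy)
  let b : X → ι → E.N := fun x => α (e (g' x))
  have hιμ : #ι ≤ μ := hι.trans hνμ
  have hext : ∀ γ : X, ∃ y : wit a → E.N, ∀ x, EqS L ν
      (Sum.elim (fun p : wit a => p.1.2) (α (σ γ x))) (Sum.elim y (b x)) := by
    intro γ
    have h1 := hu.eqS hK hunb (hℓ.trans hνμ) hE hιμ hX.le (σ γ) (fun x => e (g' x))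
      (fun q q' => by rw [(hσ γ).lt_iff_lt, he.lt_iff_lt, hg'.lt_iff_lt])
    obtain ⟨y, hy⟩ := EqS.exists_ext h1 (hY1.trans hνμ) (fun p : wit a => p.1.2)
    refine ⟨y, fun x => ?_⟩
    have h2 := EqS.comp hy (ζ := wit a ⊕ ι) (Sum.elim (fun p => Sum.inr p)
      (fun i => Sum.inl (x, i)))
    have h3 : (fun z : wit a ⊕ ι => (Sum.elim (fun p : X × ι => α (σ γ p.1) p.2)
        (fun p : wit a => p.1.2)) ((Sum.elim (fun p => Sum.inr p) (fun i => Sum.inl (x, i)) :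
        wit a ⊕ ι → (X × ι) ⊕ wit a) z)) =
        Sum.elim (fun p : wit a => p.1.2) (α (σ γ x)) := by
      funext z
      rcases z with z | z <;> rfl
    have h4 : (fun z : wit a ⊕ ι => (Sum.elim (fun p : X × ι => α (e (g' p.1)) p.2) y)
        ((Sum.elim (fun p => Sum.inr p) (fun i => Sum.inl (x, i)) :
        wit a ⊕ ι → (X × ι) ⊕ wit a) z)) = Sum.elim y (b x) := by
      funext z
      rcases z with z | z <;> rfl
    rw [h3, h4] at h2
    refine EqS.mono hν hνμ h2 ?_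
    rw [mk_sum, lift_id, lift_id]
    exact add_le_of_le hν hY1 hι
  choose y hy using hext
  refine no_order hK hunb hℓ E.mem hμE (X := X) hX.ge hY1 hι y b
    (Sum.elim (fun p : wit a => p.1.1) c) ?_ ?_
  · intro x x' hxx
    have h1 : σ x x' = e (g' x') := if_neg (not_lt.2 hxx.le)
    have h2 := hy x x'
    rw [h1] at h2
    have h3 := good_union_iff.1 (hgood (g' x') (hg'2 x').le)
    exact h2.symm.trans h3.symm
  · intro x x' hxx hcon
    have h1 : σ x' x = s (f' x) := if_pos hxx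
    have h2 := hy x' x
    rw [h1] at h2
    exact hbad1 (f' x) (hf'2 x).le (good_union_iff.2 (hcon.symm.trans h2.symm))

section limit

variable {t : Tpl K ℓ} {I J : Type u} [LinearOrder I] [LinearOrder J]

theorem eventually_iff_of_tail {X : Type u} [LinearOrder X] {U : Ultrafilter X}
    (hU : ∀ x₀, ∀ᶠ x in (U : Filter X), x₀ ≤ x) {φ : X → Prop} {x₀ x : X} (hx : x₀ ≤ x)
    (h : ∀ x, x₀ ≤ x → ∀ x', x₀ ≤ x' → (φ x ↔ φ x')) : (∀ᶠ x in (U : Filter X), φ x) ↔ φ x := by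
  constructor
  · intro h1
    obtain ⟨x', h2, h3⟩ := (h1.and (hU x₀)).exists
    exact (h x' h3 x hx).1 h2
  · intro h1
    filter_upwards [hU x₀] with x' hx'
    exact (h x hx x' hx').1 h1

/-- The limit tuple realizes the limit type. -/
theorem lim_aux (hK : K.IsLS ℓ) (hunb : ∀ ν, ν < κf ν ∧ K.CategoricalIn (κf ν))
    {ν : Cardinal.{u}} (hℓ : ℓ ≤ ν) {E : EM t I} {E' : EM t J} (hE : thr κf ν ≤ #E.N)
    (hE' : thr κf ν ≤ #E'.N) {X ι ζ : Type u} [LinearOrder X] (hX : Dir ν X) (hι : #ι ≤ ν)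
    (hζ : #ζ ≤ ν) {U : Ultrafilter X} (hU : ∀ x₀, ∀ᶠ x in (U : Filter X), x₀ ≤ x)
    (s : ι → (exLang L t.Λ).Term (ι × ULift.{u} ℕ)) {w : X → ι × ULift.{u} ℕ → I} (hw : Unif w)
    {Q : Type u} (hQ : #Q ≤ ν) (v : Q → I) (v' : Q → J) (hv : ∀ q q', v q ≤ v q' ↔ v' q ≤ v' q')
    (w' : ι × ULift.{u} ℕ → J)
    (h1 : ∀ p q, w' p ≤ v' q ↔ ∀ᶠ x in (U : Filter X), w x p ≤ v q)
    (h2 : ∀ p q, v' q ≤ w' p ↔ ∀ᶠ x in (U : Filter X), v q ≤ w x p)
    (h3 : ∀ p p', w' p ≤ w' p' ↔ ∀ᶠ x in (U : Filter X), w x p ≤ w x p')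
    (sy : ζ → (exLang L t.Λ).Term Q) :
    ∃ x₀, ∀ x, x₀ ≤ x → EqS L ν
      (Sum.elim (fun z => (sy z).realize fun q => E'.c (v' q))
        fun i => (s i).realize fun p => E'.c (w' p))
      (Sum.elim (fun z => (sy z).realize fun q => E.c (v q))
        fun i => (s i).realize fun p => E.c (w x p)) := by
  have hν : ℵ₀ ≤ ν := t.hν.trans hℓ
  obtain ⟨x₀, hx₀⟩ := hw.ev_const hX (mk_prod_le hν (mk_prod_nat_le hν hι) hQ) v
  refine ⟨x₀, fun x hx => ?_⟩
  have hQ' : #(Q ⊕ (ι × ULift.{u} ℕ)) ≤ ν := by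
    rw [mk_sum, lift_id, lift_id]
    exact add_le_of_le hν hQ (mk_prod_nat_le hν hι)
  have hζι : #(ζ ⊕ ι) ≤ ν := by
    rw [mk_sum, lift_id, lift_id]
    exact add_le_of_le hν hζ hι
  let tm : ζ ⊕ ι → (exLang L t.Λ).Term (Q ⊕ (ι × ULift.{u} ℕ)) := Sum.elim
    (fun z => (sy z).relabel Sum.inl) (fun i => (s i).relabel Sum.inr)
  have h4 := eqS_pat hK hunb hℓ E' E hE' hE hQ' (Sum.elim v' w') (Sum.elim v (w x)) (by
    rintro (p | p) (q | q)
    · exact (hv p q).symm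
    · refine (h2 q p).trans (eventually_iff_of_tail (φ := fun x => v p ≤ w x q) hU hx ?_)
      exact fun x hx x' hx' => (hx₀ x hx x' hx' q p).2
    · refine (h1 p q).trans (eventually_iff_of_tail (φ := fun x => w x p ≤ v q) hU hx ?_)
      exact fun x hx x' hx' => (hx₀ x hx x' hx' p q).1
    · refine (h3 p q).trans (eventually_iff_of_tail (φ := fun x => w x p ≤ w x q) hU hx ?_)
      exact fun x _ x' _ => hw x x x' x' (by simp) (by simp) p q) hζι tm
  have h5 : ∀ (A : Type u) [(exLang L t.Λ).Structure A] (d : Q → A) (e : ι × ULift.{u} ℕ → A),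
      (fun i => (tm i).realize (Sum.elim d e)) =
      Sum.elim (fun z => (sy z).realize d) (fun i => (s i).realize e) := by
    intro A _ d e
    funext i
    rcases i with z | i
    · change ((sy z).relabel Sum.inl).realize _ = (sy z).realize d
      rw [Language.Term.realize_relabel]
      rfl
    · change ((s i).relabel Sum.inr).realize _ = (s i).realize e
      rw [Language.Term.realize_relabel]
      rfl
  have h6 : (fun p => E'.c (Sum.elim v' w' p)) = Sum.elim (fun q => E'.c (v' q))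
      (fun p => E'.c (w' p)) := by
    funext p
    rcases p with p | p <;> rfl
  have h7 : (fun p => E.c (Sum.elim v (w x) p)) = Sum.elim (fun q => E.c (v q))
      (fun p => E.c (w x p)) := by
    funext p
    rcases p with p | p <;> rfl
  rw [h6, h7, h5, h5] at h4
  exact h4

/-- Limits of uniform sequences over small sets in nice EM models. -/
theorem IsUnif.exists_limit (hK : K.IsLS ℓ) (hunb : ∀ ν, ν < κf ν ∧ K.CategoricalIn (κf ν))
    {ν θ : Cardinal.{u}} (hℓ : ℓ ≤ ν) (hνθ : ν ≤ θ) (hI : Nice θ I) {E : EM t I}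
    (hE : thr κf ν ≤ #E.N) {X ι : Type u} [LinearOrder X] (hX : Dir ν X) {a : X → ι → E.N}
    (h : IsUnif E a) (hι : #ι ≤ ν) (B : Set E.N) (hB : #B ≤ θ) :
    ∃ c' : ι → E.N, ∀ (ζ : Type u) (y : ζ → E.N), #ζ ≤ ν → (∀ z, y z ∈ B) →
      ∃ x₀, ∀ x, x₀ ≤ x → EqS L ν (Sum.elim y c') (Sum.elim y (a x)) := by
  classical
  obtain ⟨s, w, hs, hw⟩ := h
  have hν : ℵ₀ ≤ ν := t.hν.trans hℓ
  have hθ : ℵ₀ ≤ θ := hν.trans hνθ
  have hXne : Nonempty X := ⟨(hX ∅ (by simp)).choose⟩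
  have hne : Nonempty I := by
    obtain ⟨d, -⟩ := hI ∅ ∅ (by simp) (by simp) (by simp)
    exact ⟨d⟩
  choose sy qy hsq using exists_nat_term E
  let U : Ultrafilter X := Ultrafilter.of Filter.atTop
  have hU' : (U : Filter X) ≤ Filter.atTop := Ultrafilter.of_le _
  have hU : ∀ x₀, ∀ᶠ x in (U : Filter X), x₀ ≤ x := fun x₀ => hU' (Filter.eventually_ge_atTop x₀)
  let J' : Type u := Filter.Germ (U : Filter X) I
  let W : Set (J' × I) := range fun p : B × ULift.{u} ℕ =>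
    (((qy p.1 p.2 : I) : Filter.Germ (U : Filter X) I), qy p.1 p.2)
  have hW : OrdPat W := by
    rintro _ ⟨p, rfl⟩ _ ⟨q, rfl⟩
    exact Filter.Germ.const_le_iff
  have hWθ : #W ≤ θ := mk_range_le.trans (mk_prod_nat_le hθ hB)
  obtain ⟨W', h1, h2, -, h4⟩ := OrdPat.exists_extend hθ hI hW hWθ
    (range fun p : ι × ULift.{u} ℕ => ((fun x => w x p : X → I) : Filter.Germ (U : Filter X) I))
    (mk_range_le.trans (mk_prod_nat_le hθ (hι.trans hνθ)))
  choose w' hw' using fun p => h4 _ ⟨p, rfl⟩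
  refine ⟨fun i => (s i).realize fun p => E.c (w' p), fun ζ y hζ hy => ?_⟩
  have hWm : ∀ q : ζ × ULift.{u} ℕ, ((((qy (y q.1) q.2 : I) : Filter.Germ (U : Filter X) I),
      qy (y q.1) q.2) : J' × I) ∈ W' := fun q => h1 ⟨(⟨y q.1, hy q.1⟩, q.2), rfl⟩
  obtain ⟨x₀, hx₀⟩ := lim_aux hK hunb hℓ hE hE hX hι hζ hU s hw
    (mk_prod_nat_le hν hζ) (fun q : ζ × ULift.{u} ℕ => qy (y q.1) q.2)
    (fun q : ζ × ULift.{u} ℕ => qy (y q.1) q.2) (fun _ _ => Iff.rfl) w'
    (fun p q => (h2 _ (hw' p) _ (hWm q)).symm) (fun p q => (h2 _ (hWm q) _ (hw' p)).symm)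
    (fun p p' => (h2 _ (hw' p) _ (hw' p')).symm) (fun z => (sy (y z)).relabel fun k => (z, k))
  refine ⟨x₀, fun x hx => ?_⟩
  have h5 := hx₀ x hx
  have h6 : (fun z => ((sy (y z)).relabel fun k => (z, k)).realize
      fun q : ζ × ULift.{u} ℕ => E.c (qy (y q.1) q.2)) = y := by
    funext z
    rw [Language.Term.realize_relabel]
    exact hsq (y z)
  have h7 : (fun i => (s i).realize fun p => E.c (w x p)) = a x := funext fun i => hs x i
  rw [h6, h7] at h5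
  exact h5

/-- Limits of uniform sequences in extensions. -/
theorem IsUnif.exists_limit_ext (hK : K.IsLS ℓ)
    (hunb : ∀ ν, ν < κf ν ∧ K.CategoricalIn (κf ν)) {I : Type u} [LinearOrder I]
    {E : EM t I} (hne : Nonempty I) {ν₀ : Cardinal.{u}} {X ι : Type u} [LinearOrder X]
    (hX : Dir ν₀ X) {a : X → ι → E.N} (h : IsUnif E a) :
    ∃ (J : Type u) (_ : LinearOrder J) (σ : I → J) (E' : EM t J) (f : E.N ↪[L] E'.N)
      (c' : ι → E'.N), StrictMono σ ∧ K.Emb f ∧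
      (∀ s : (exLang L t.Λ).Term I, f (s.realize E.c) = s.realize fun i => E'.c (σ i)) ∧
      ∀ ν, ν ≤ ν₀ → ℓ ≤ ν → thr κf ν ≤ #E.N → #ι ≤ ν → ∀ (ζ : Type u) (y : ζ → E.N), #ζ ≤ ν →
      ∃ x₀, ∀ x, x₀ ≤ x → EqS L ν (Sum.elim (fun z => f (y z)) c') (Sum.elim y (a x)) := by
  classical
  obtain ⟨s, w, hs, hw⟩ := h
  have hXne : Nonempty X := ⟨(hX ∅ (by simp)).choose⟩
  choose sy qy hsq using exists_nat_term E
  let U : Ultrafilter X := Ultrafilter.of Filter.atTop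
  have hU' : (U : Filter X) ≤ Filter.atTop := Ultrafilter.of_le _
  have hU : ∀ x₀, ∀ᶠ x in (U : Filter X), x₀ ≤ x := fun x₀ => hU' (Filter.eventually_ge_atTop x₀)
  let J' : Type u := Filter.Germ (U : Filter X) I
  let σ : I → J' := fun i => ((i : I) : Filter.Germ (U : Filter X) I)
  have hσ : StrictMono σ := fun i j hij => Filter.Germ.const_lt hij
  obtain ⟨E'⟩ := exists_em t J'
  obtain ⟨f, hf, hf'⟩ := E.exists_map E' σ hσ
  let w' : ι × ULift.{u} ℕ → J' := fun p => ((fun x => w x p : X → I) : Filter.Germ (U : Filter X) I)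
  refine ⟨J', inferInstance, σ, E', f, fun i => (s i).realize fun p => E'.c (w' p), hσ, hf, hf',
    fun ν hν₀ hℓ hE hι ζ y hζ => ?_⟩
  have hν : ℵ₀ ≤ ν := t.hν.trans hℓ
  obtain ⟨x₀, hx₀⟩ := lim_aux (E := E) (E' := E') hK hunb hℓ hE
    (hE.trans (mk_le_of_injective f.injective)) (hX.mono hν₀) hι hζ hU s hw
    (mk_prod_nat_le hν hζ) (fun q : ζ × ULift.{u} ℕ => qy (y q.1) q.2)
    (fun q : ζ × ULift.{u} ℕ => σ (qy (y q.1) q.2)) (fun _ _ => hσ.le_iff_le.symm) w'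
    (fun p q => Filter.Germ.coe_le) (fun p q => Filter.Germ.coe_le)
    (fun p p' => Filter.Germ.coe_le) (fun z => (sy (y z)).relabel fun k => (z, k))
  refine ⟨x₀, fun x hx => ?_⟩
  have h5 := hx₀ x hx
  have h6 : (fun z => ((sy (y z)).relabel fun k => (z, k)).realize
      fun q : ζ × ULift.{u} ℕ => E.c (qy (y q.1) q.2)) = y := by
    funext z
    rw [Language.Term.realize_relabel]
    exact hsq (y z)
  have h7 : (fun i => (s i).realize fun p => E.c (w x p)) = a x := funext fun i => hs x i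
  have h8 : (fun z => ((sy (y z)).relabel fun k => (z, k)).realize
      fun q : ζ × ULift.{u} ℕ => E'.c (σ (qy (y q.1) q.2))) = fun z => f (y z) := by
    funext z
    rw [Language.Term.realize_relabel]
    have h9 := hf' ((sy (y z)).relabel (qy (y z)))
    rw [Language.Term.realize_relabel, Language.Term.realize_relabel] at h9
    rw [← congrArg f (hsq (y z))]
    exact h9.symm
  rw [h6, h7, h8] at h5
  exact h5

/-- **(R)**: realization of locally consistent types over sets of size `θ` in `θ`-nice EM models. -/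
theorem exists_real (hK : K.IsLS ℓ) (hunb : ∀ ν, ν < κf ν ∧ K.CategoricalIn (κf ν))
    {ν θ : Cardinal.{u}} (hℓ : ℓ ≤ ν) (hνθ : ν ≤ θ) (hI : Nice θ I) (E : EM t I)
    (hE : thr κf (opB κf ν) ≤ #E.N) {M : Type u} [L.Structure M] {ι : Type u}
    (hι : #ι ≤ ν) (c : ι → M) (G : Set (M × E.N)) (hGθ : #(Prod.snd '' G) ≤ θ)
    (hG : ∀ Y ⊆ G, #Y ≤ limB κf ν → ∃ c' : ι → E.N, ∀ Y' ⊆ Y, #Y' ≤ ν →
      Good L ν (Y' ∪ range fun i => (c i, c' i))) :
    ∃ c' : ι → E.N, ∀ Y ⊆ G, #Y ≤ ν → Good L ν (Y ∪ range fun i => (c i, c' i)) := by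
  have hν : ℵ₀ ≤ ν := hK.1.trans hℓ
  have hμ : ℵ₀ ≤ opB κf ν := hν.trans (le_opB hunb ν)
  have hne : Nonempty I := by
    obtain ⟨d, -⟩ := hI ∅ ∅ (by simp) (by simp) (by simp)
    exact ⟨d⟩
  have hE2 : thr κf ν ≤ #E.N := ((thr_le_opB κf ν).trans (le_thr hunb _)).trans hE
  obtain ⟨a, h1, -, h2⟩ := exists_lim hK hunb hℓ hne E hE hι c G univ (by
    intro Y hY hYB
    obtain ⟨c', h3⟩ := hG Y hY hYB
    exact ⟨c', trivial, h3⟩)
  obtain ⟨c', hc'⟩ := h1.exists_limit hK hunb hℓ hνθ hI hE2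
    ((dir_succTy hμ).mono (le_opB hunb ν)) hι (Prod.snd '' G) hGθ
  refine ⟨c', fun Y hY hYν => ?_⟩
  obtain ⟨x₀, hx₀⟩ := hc' Y (fun p => p.1.2) hYν fun p => ⟨p.1, hY p.2, rfl⟩
  obtain ⟨x₁, hx₁⟩ := h2 Y hY hYν
  rw [good_union_iff]
  exact (good_union_iff.1 (hx₁ (max x₀ x₁) (le_max_right _ _))).trans
    (hx₀ (max x₀ x₁) (le_max_left _ _)).symm

end limit

end em

end Vale.Agent.P307.R2.H1
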