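import Vale.Agent.P307.R2.H1.Ab
import Vale.Agent.P307.R2.H514.Tame
import Vale.Agent.P307.R2.H971.Mon

/-!
The base camp: (R), (T), AB(θ) for the cardinals `θ` of cofinality `ω` in a club.
-/

set_option linter.unusedSectionVars false

universe u v w

open FirstOrder Cardinal Set

namespace Vale.Agent.P307.R2.H1

open Vale.Agent.P307 Vale.Agent.P307.H304 Vale.Agent.P307.R2.H287 Vale.Agent.P307.R2.H971
  Vale.Agent.P307.R2.H514 Language.Structure Language.Substructure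

variable {L : Language.{u, u}} {K : AEC L} {ℓ θ : Cardinal.{u}} {κf α : Cardinal.{u} → Cardinal.{u}}
  {t : Tpl K ℓ}

theorem tameAt_of (hK : K.IsLS ℓ) (hunb : ∀ ν, ν < κf ν ∧ K.CategoricalIn (κf ν))
    (hst : Stab K ℓ α (thr κf)) (t : Tpl K ℓ) {s : Cardinal.{u}} (hs : ℓ ≤ s)
    (hα : ∀ ρ < θ, α ρ < θ) (hκ : ∀ ρ < θ, thr κf ρ < θ) (hcof : θ.ord.cof = ℵ₀)
    (hH : tH s < θ) : TameAt t θ s (α (tH s)) := by
  intro I _ E W hI X c c' hX h ν hν hℓν hXν ι a hι ha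
  have hst1 : tH s ≤ α (tH s) := (hst _ (hs.trans (lt_tH' s).le)).1
  refine tame hK hunb hst t hs hα hκ hcof hH E hI W hX c c' ?_ hℓν hν hXν hι a ha
  intro ι a hι ha
  exact h ι a (hι.trans hst1) ha

/-- The level at which the types of `s`-tuples over strong submodels are determined. -/
noncomputable def tB (α : Cardinal.{u} → Cardinal.{u}) (s : Cardinal.{u}) : Cardinal.{u} :=
  α (tH s)

/-- The closure function of the club. -/
noncomputable def gB (κf α : Cardinal.{u} → Cardinal.{u}) (ρ : Cardinal.{u}) : Cardinal.{u} :=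
  max (max (thr κf ρ) (limB κf ρ)) (max (max (α ρ) (tH ρ)) (max (tB α ρ) (2 ^ ρ)))

/-- Everything that is known at a closure point of cofinality `ω`. -/
structure BasePt (K : AEC L) (ℓ : Cardinal.{u}) (κf α : Cardinal.{u} → Cardinal.{u})
    (θ : Cardinal.{u}) : Prop where
  pt : Pt K ℓ κf θ
  al : ∀ ρ < θ, α ρ < θ
  tb : ∀ ρ < θ, tB α ρ < θ
  pow : ∀ ρ < θ, 2 ^ ρ < θ
  le_tb : ∀ s, ℓ ≤ s → s ≤ tB α s
  tame : ∀ (t : Tpl K ℓ) (s : Cardinal.{u}), ℓ ≤ s → s < θ → TameAt t θ s (tB α s)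
  ab : AB K θ (thr κf θ)

theorem basePt (hK : K.IsLS ℓ) (hunb : ∀ ν, ν < κf ν ∧ K.CategoricalIn (κf ν))
    (hst : Stab K ℓ α (thr κf)) (hcat : ∀ θ, ℓ < θ → (∀ ρ < θ, α ρ < θ) →
      (∀ ρ < θ, thr κf ρ < θ) → θ.ord.cof = ℵ₀ → K.CategoricalIn θ)
    (hℓθ : ℓ < θ) (hcof : θ.ord.cof = ℵ₀) (hg : ∀ ρ < θ, gB κf α ρ < θ) :
    BasePt K ℓ κf α θ := by
  have h1 : ∀ ρ < θ, thr κf ρ < θ := fun ρ hρ =>
    ((le_max_left _ _).trans (le_max_left _ _)).trans_lt (hg ρ hρ)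
  have h2 : ∀ ρ < θ, limB κf ρ < θ := fun ρ hρ =>
    ((le_max_right _ _).trans (le_max_left _ _)).trans_lt (hg ρ hρ)
  have h3 : ∀ ρ < θ, α ρ < θ := fun ρ hρ =>
    (((le_max_left _ _).trans (le_max_left _ _)).trans (le_max_right _ _)).trans_lt (hg ρ hρ)
  have h4 : ∀ ρ < θ, tH ρ < θ := fun ρ hρ =>
    (((le_max_right _ _).trans (le_max_left _ _)).trans (le_max_right _ _)).trans_lt (hg ρ hρ)
  have h5 : ∀ ρ < θ, tB α ρ < θ := fun ρ hρ =>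
    (((le_max_left _ _).trans (le_max_right _ _)).trans (le_max_right _ _)).trans_lt (hg ρ hρ)
  have h6 : ∀ ρ < θ, 2 ^ ρ < θ := fun ρ hρ =>
    (((le_max_right _ _).trans (le_max_right _ _)).trans (le_max_right _ _)).trans_lt (hg ρ hρ)
  have hpt : Pt K ℓ κf θ := ⟨hℓθ, hcof, h1, h2, hcat θ hℓθ h3 h1 hcof⟩
  have h7 : ∀ s, ℓ ≤ s → s ≤ tB α s := fun s hs =>
    (lt_tH' s).le.trans (hst _ (hs.trans (lt_tH' s).le)).1
  have h8 : ∀ (t : Tpl K ℓ) (s : Cardinal.{u}), ℓ ≤ s → s < θ → TameAt t θ s (tB α s) :=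
    fun t s hs hsθ => tameAt_of hK hunb hst t hs h3 h1 hcof (h4 s hsθ)
  obtain ⟨t⟩ := exists_tpl' hK hunb
  exact ⟨hpt, h3, h5, h6, h7, h8, ab_of_tame hK hunb hpt fun s hs hsθ =>
    ⟨tB α s, h7 s hs, h5 s hsθ, h8 t s hs hsθ⟩⟩

/-- **The base camp.** -/
theorem exists_base (hK : K.IsLS ℓ) (hunb : ∀ ν, ν < κf ν ∧ K.CategoricalIn (κf ν)) :
    ∃ α : Cardinal.{u} → Cardinal.{u}, Stab K ℓ α (thr κf) ∧
      ∀ θ, ℓ < θ → θ.ord.cof = ℵ₀ → (∀ ρ < θ, gB κf α ρ < θ) → BasePt K ℓ κf α θ := by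
  obtain ⟨α, h1, h2⟩ := exists_alpha_fun hK hunb
  exact ⟨α, h1, fun θ hθ hcof hg => basePt hK hunb h1 h2 hθ hcof hg⟩

/-- **AB(θ) with small tuples**: it is enough to compare the pieces at the level `tB α s₀`. -/
theorem BasePt.ab_plus (h : BasePt K ℓ κf α θ) (hK : K.IsLS ℓ)
    (hunb : ∀ ν, ν < κf ν ∧ K.CategoricalIn (κf ν)) {A M N : Type u} [L.Structure A]
    [L.Structure M] [L.Structure N] (f : A ↪[L] M) (g : A ↪[L] N) (hf : K.Emb f) (hg : K.Emb g)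
    (hA : #A = θ) (hM : thr κf θ ≤ #M) (hN : thr κf θ ≤ #N) {s₀ : Cardinal.{u}} (hs₀ : ℓ ≤ s₀)
    (hs₀θ : s₀ < θ) {ι : Type u} (hι : #ι ≤ s₀) (r : ι → M) (s : ι → N)
    (hrs : ∀ (Q : Type u) (a : Q → A), #Q ≤ tB α s₀ →
      EqS L (tB α s₀) (Sum.elim (fun z => f (a z)) r) (Sum.elim (fun z => g (a z)) s)) :
    EqS L θ (Sum.elim f r) (Sum.elim g s) := by
  obtain ⟨t⟩ := exists_tpl' hK hunb
  exact ab_plus_of_tame hK hunb h.pt (fun s hs hsθ => ⟨tB α s, h.le_tb s hs, h.tb s hsθ,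
    h.tame t s hs hsθ⟩) f g hf hg hA hM hN (hι.trans_lt hs₀θ) r s
    (samePieces_of_level hK hunb h.pt hs₀ (h.le_tb s₀ hs₀) (h.tb s₀ hs₀θ) (h.tame t s₀ hs₀ hs₀θ)
      f g hf hg hA hι r s hrs)

/-- Members of size `θ` have large extensions. -/
theorem BasePt.largeExt (h : BasePt K ℓ κf α θ) (hK : K.IsLS ℓ)
    (hunb : ∀ ν, ν < κf ν ∧ K.CategoricalIn (κf ν)) (T : Cardinal.{u}) : LargeExt K θ T := by
  obtain ⟨h1, ⟨M, _, h2, h3⟩, -⟩ := hunb (max θ T)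
  exact largeExt_of_cat hK h.pt.lt.le h.pt.cat h2
    (((le_max_left _ _).trans h1.le).trans h3.ge) (((le_max_right _ _).trans h1.le).trans h3.ge)

/-- All large members are saturated over submodels of size `θ`. -/
theorem BasePt.sat (h : BasePt K ℓ κf α θ) (hK : K.IsLS ℓ)
    (hunb : ∀ ν, ν < κf ν ∧ K.CategoricalIn (κf ν)) {M : Type u} [L.Structure M]
    (hM : thr κf θ ≤ #M) : Sat K θ M :=
  h.ab.sat hK h.pt.lt.le (h.largeExt hK hunb _) hM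

/-- Existence of the saturated member of size `θ⁺`. -/
theorem BasePt.exists_saturated (h : BasePt K ℓ κf α θ) (hK : K.IsLS ℓ)
    (hunb : ∀ ν, ν < κf ν ∧ K.CategoricalIn (κf ν)) :
    ∃ (C : Type u) (_ : L.Structure C), K.mem C ∧ #C = Order.succ θ ∧ Sat K θ C := by
  obtain ⟨t⟩ := exists_tpl' hK hunb
  exact H971.exists_saturated hK h.pt.lt.le t h.pt.lt.le h.pt.cat h.ab

end Vale.Agent.P307.R2.H1
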