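import Vale.Agent.P307.R2.H541.Ext

/-!
Universal extensions and limit models over a model, in a homogeneous structure: uniqueness,
absorption, comparison, existence of free limit models.
-/

universe u

open Set Cardinal Function

namespace Vale.Agent.P307.R2.H1L

open Vale.Agent.P307.R2.H541 Vale.Agent.P307.R2.H541.PG

variable {C : Type u}

/-- `Q` is universal over `P`. -/
def Uni (M : PG C) (P Q : Set C) : Prop :=
  P ⊆ Q ∧ ∀ R ∈ M.S, P ⊆ R → ∃ g ∈ M.G, (∀ a ∈ P, g a = a) ∧ g '' R ⊆ Q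

/-- `B` is a limit model over `D`: the union of a sequence of universal extensions. -/
def Lim (M : PG C) (D B : Set C) : Prop :=
  ∃ N : ℕ → Set C, D ⊆ N 0 ∧ (∀ n, N n ∈ M.S) ∧ (∀ n, Uni M (N n) (N (n + 1))) ∧ B ∈ M.S ∧
    ⋃ n, N n = B

variable {M : PG C} {P Q R D B B' W St : Set C}

theorem card_union {A A' : Set C} (hA : #A ≤ M.χ) (hA' : #A' ≤ M.χ) : #(A ∪ A' : Set C) ≤ M.χ :=
  (mk_union_le A A').trans (add_le_of_le M.hχ hA hA')

theorem exists_sup (hls : ∀ X : Set C, #X ≤ M.χ → ∃ N ∈ M.S, X ⊆ N) {A A' : Set C}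
    (hA : #A ≤ M.χ) (hA' : #A' ≤ M.χ) : ∃ N ∈ M.S, A ⊆ N ∧ A' ⊆ N := by
  obtain ⟨N, h1, h2⟩ := hls (A ∪ A') (card_union hA hA')
  exact ⟨N, h1, subset_union_left.trans h2, subset_union_right.trans h2⟩

/-- Coherent maps along a sequence of models. -/
theorem glue_nat {N : ℕ → Set C} (hN : Monotone N) (hS : ∀ n, N n ∈ M.S)
    (hU : (⋃ n, N n) ∈ M.S) {g : ℕ → Equiv.Perm C} (hg : ∀ n, g n ∈ M.G)
    (hgg : ∀ n, ∀ a ∈ N n, g (n + 1) a = g n a) :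
    ∃ h ∈ M.G, ∀ n, ∀ a ∈ N n, h a = g n a := by
  obtain ⟨Y, hY, hYc, hYN⟩ := M.cof (⋃ n, N n) (M.S_card hU).le
  obtain ⟨R, hR, hRR⟩ := exists_seq (fun n (R : Set C) => R ∈ M.T ∧ Y n ∩ N n ⊆ R ∧ R ⊆ N n)
    (fun _ R R' => R ⊆ R') (by
      obtain ⟨R, h1, h2, h3⟩ := M.ls (hS 0) (A := Y 0 ∩ N 0) inter_subset_right
        (small_inter_left _ (hYc 0))
      exact ⟨R, h1, h2, h3⟩) (by
      rintro n R ⟨h1, h2, h3⟩
      obtain ⟨R', h4, h5, h6⟩ := M.ls (hS (n + 1)) (A := R ∪ (Y (n + 1) ∩ N (n + 1)))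
        (union_subset (h3.trans (hN (Nat.le_succ n))) inter_subset_right)
        (small_union (M.T_card h1) (small_inter_left _ (hYc _)))
      exact ⟨R', ⟨h4, subset_union_right.trans h5, h6⟩, subset_union_left.trans h5⟩)
  have hRm : Monotone R := monotone_nat_of_le_succ hRR
  have hRN : ⋃ n, R n = ⋃ n, N n := by
    refine Subset.antisymm (iUnion_mono fun n => (hR n).2.2) ?_
    intro x hx
    have hx' := hx
    rw [← hYN] at hx'
    obtain ⟨i, hi⟩ := mem_iUnion.1 hx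
    obtain ⟨j, hj⟩ := mem_iUnion.1 hx'
    exact mem_iUnion.2 ⟨max i j, (hR _).2.1 ⟨hY (le_max_right i j) hj, hN (le_max_left i j) hi⟩⟩
  have hmono : ∀ n m, n ≤ m → ∀ a ∈ N n, g m a = g n a := by
    intro n m hnm
    induction m, hnm using Nat.le_induction with
    | base => exact fun _ _ => rfl
    | succ m hm ih =>
      intro a ha
      rw [hgg m a (hN hm ha), ih a ha]
  obtain ⟨h, hh, hhg⟩ := M.lim R hRm (fun n => (hR n).1) (by rw [hRN]; exact hU) g hg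
    (fun n a ha => hgg n a ((hR n).2.2 ha))
  refine ⟨h, hh, fun n a ha => ?_⟩
  have ha' : a ∈ ⋃ n, R n := by
    rw [hRN]
    exact mem_iUnion.2 ⟨n, ha⟩
  obtain ⟨m, hm⟩ := mem_iUnion.1 ha'
  rw [hhg m a hm, ← hmono m (max n m) (le_max_right n m) a ((hR m).2.2 hm),
    hmono n (max n m) (le_max_left n m) a ha]

/-! ### Universal extensions -/

theorem Uni.smul (h : Uni M P Q) {g : Equiv.Perm C} (hg : g ∈ M.G) :
    Uni M (g '' P) (g '' Q) := by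
  refine ⟨image_mono h.1, fun R hR hPR => ?_⟩
  obtain ⟨k, hk, h1, h2⟩ := h.2 ((g⁻¹ : Equiv.Perm C) '' R) (M.S_inv (M.G.inv_mem hg) hR) (by
    intro x hx
    exact ⟨g x, hPR (mem_image_of_mem g hx), inv_ap g x⟩)
  refine ⟨g * k * g⁻¹, M.G.mul_mem (M.G.mul_mem hg hk) (M.G.inv_mem hg), ?_, ?_⟩
  · rintro _ ⟨x, hx, rfl⟩
    change g (k (g⁻¹ (g x))) = g x
    rw [inv_ap, h1 x hx]
  · rintro _ ⟨x, hx, rfl⟩
    exact ⟨k (g⁻¹ x), h2 (mem_image_of_mem k (mem_image_of_mem _ hx)), rfl⟩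

theorem Uni.mono_right (h : Uni M P Q) {Q' : Set C} (hQ : Q ⊆ Q') : Uni M P Q' := by
  refine ⟨h.1.trans hQ, fun R hR hPR => ?_⟩
  obtain ⟨g, hg, h1, h2⟩ := h.2 R hR hPR
  exact ⟨g, hg, h1, h2.trans hQ⟩

theorem Uni.mono_base (hls : ∀ X : Set C, #X ≤ M.χ → ∃ N ∈ M.S, X ⊆ N) (h : Uni M P Q)
    (hP : #P ≤ M.χ) {P' : Set C} (hP' : P' ⊆ P) : Uni M P' Q := by
  refine ⟨hP'.trans h.1, fun R hR hPR => ?_⟩
  obtain ⟨R', hR', h1, h2⟩ := exists_sup hls hP (M.S_card hR).le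
  obtain ⟨g, hg, h3, h4⟩ := h.2 R' hR' h1
  exact ⟨g, hg, fun a ha => h3 a (hP' ha), (image_mono h2).trans h4⟩

/-! ### Limit models -/

namespace Lim

theorem mem (h : Lim M D B) : B ∈ M.S := h.choose_spec.2.2.2.1

theorem sub (h : Lim M D B) : D ⊆ B := by
  obtain ⟨N, h1, -, -, -, h2⟩ := h
  rw [← h2]
  exact h1.trans (subset_iUnion N 0)

theorem card (h : Lim M D B) : #D ≤ M.χ :=
  (mk_le_mk_of_subset h.sub).trans (M.S_card h.mem).le

theorem mono_base (h : Lim M D B) {D' : Set C} (hD : D' ⊆ D) : Lim M D' B := by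
  obtain ⟨N, h1, h2⟩ := h
  exact ⟨N, hD.trans h1, h2⟩

theorem smul (h : Lim M D B) {g : Equiv.Perm C} (hg : g ∈ M.G) : Lim M (g '' D) (g '' B) := by
  obtain ⟨N, h1, h2, h3, h4, h5⟩ := h
  refine ⟨fun n => g '' N n, image_mono h1, fun n => M.S_inv hg (h2 n),
    fun n => (h3 n).smul hg, M.S_inv hg h4, ?_⟩
  rw [← image_iUnion, h5]

theorem monotone {N : ℕ → Set C} (h : ∀ n, Uni M (N n) (N (n + 1))) : Monotone N :=
  monotone_nat_of_le_succ fun n => (h n).1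

theorem uni (hls : ∀ X : Set C, #X ≤ M.χ → ∃ N ∈ M.S, X ⊆ N) (h : Lim M D B) :
    Uni M D B := by
  obtain ⟨N, h1, h2, h3, h4, h5⟩ := h
  refine ((h3 0).mono_base hls (M.S_card (h2 0)).le h1).mono_right ?_
  rw [← h5]
  exact subset_iUnion N _

/-- Absorption: a model over the base lies in an initial part of the sequence, up to conjugacy. -/
theorem absorb (hls : ∀ X : Set C, #X ≤ M.χ → ∃ N ∈ M.S, X ⊆ N) (h : Lim M D B)
    (hQ : #Q ≤ M.χ) : ∃ g ∈ M.G, (∀ a ∈ D, g a = a) ∧ g '' Q ⊆ B ∧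
      Lim M (D ∪ g '' Q) B := by
  obtain ⟨N, h1, h2, h3, h4, h5⟩ := h
  obtain ⟨R, hR, h6, h7⟩ := exists_sup hls (M.S_card (h2 0)).le hQ
  obtain ⟨g, hg, h8, h9⟩ := (h3 0).2 R hR h6
  have h10 : g '' Q ⊆ N 1 := (image_mono h7).trans h9
  have hmono := monotone h3
  have h11 : ⋃ n, N (n + 1) = B := by
    rw [← h5]
    refine Subset.antisymm (iUnion_subset fun n => subset_iUnion N (n + 1)) ?_
    exact iUnion_mono fun n => hmono (Nat.le_succ n)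
  refine ⟨g, hg, fun a ha => h8 a (h1 ha), ?_, fun n => N (n + 1),
    union_subset (h1.trans (h3 0).1) h10, fun n => h2 _, fun n => h3 _, h4, h11⟩
  rw [← h5]
  exact h10.trans (subset_iUnion N 1)

/-- Uniqueness of limit models. -/
theorem unique (hls : ∀ X : Set C, #X ≤ M.χ → ∃ N ∈ M.S, X ⊆ N) (h : Lim M D B)
    (h' : Lim M D B') : ∃ g ∈ M.G, (∀ a ∈ D, g a = a) ∧ g '' B = B' := by
  obtain ⟨N, h1, h2, h3, h4, h5⟩ := h
  obtain ⟨N', h1', h2', h3', h4', h5'⟩ := h'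
  have hm := monotone h3
  have hm' := monotone h3'
  obtain ⟨g, hg, hgg⟩ := exists_seq (fun n (g : Equiv.Perm C) => g ∈ M.G ∧ (∀ a ∈ D, g a = a) ∧
      g '' N n ⊆ N' (n + 1))
    (fun n g g' => (∀ a ∈ N n, g' a = g a) ∧ N' (n + 1) ⊆ g' '' N (n + 1)) (by
      obtain ⟨R, hR, h6, h7⟩ := exists_sup hls (M.S_card (h2 0)).le (M.S_card (h2' 0)).le
      obtain ⟨g, hg, h8, h9⟩ := (h3' 0).2 R hR h7
      exact ⟨g, hg, fun a ha => h8 a (h1' ha), (image_mono h6).trans h9⟩) (by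
      rintro n g ⟨hg, hgD, hgN⟩
      obtain ⟨k, hk, hk1, hk2⟩ := (h3 n).2 ((g⁻¹ : Equiv.Perm C) '' N' (n + 1))
        (M.S_inv (M.G.inv_mem hg) (h2' _)) (by
          intro x hx
          exact ⟨g x, hgN (mem_image_of_mem g hx), inv_ap g x⟩)
      have hgk : g * k⁻¹ ∈ M.G := M.G.mul_mem hg (M.G.inv_mem hk)
      have h6 : N' (n + 1) ⊆ (g * k⁻¹ : Equiv.Perm C) '' N (n + 1) := by
        intro x hx
        refine ⟨k (g⁻¹ x), hk2 (mem_image_of_mem k (mem_image_of_mem _ hx)), ?_⟩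
        change g (k⁻¹ (k (g⁻¹ x))) = x
        rw [inv_ap, ap_inv]
      obtain ⟨l, hl, hl1, hl2⟩ := (h3' (n + 1)).2 ((g * k⁻¹ : Equiv.Perm C) '' N (n + 1))
        (M.S_inv hgk (h2 _)) h6
      have h7 : ∀ a ∈ N n, (l * (g * k⁻¹)) a = g a := by
        intro a ha
        change l (g (k⁻¹ a)) = g a
        rw [fix_inv (hk1 a ha)]
        exact hl1 _ (hgN (mem_image_of_mem g ha))
      refine ⟨l * (g * k⁻¹), ⟨M.G.mul_mem hl hgk, fun a ha => ?_, ?_⟩, h7, ?_⟩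
      · rw [h7 a (hm (Nat.zero_le n) (h1 ha)), hgD a ha]
      · rintro _ ⟨x, hx, rfl⟩
        exact hl2 (mem_image_of_mem l (mem_image_of_mem _ hx))
      · intro x hx
        obtain ⟨y, hy, hyx⟩ := h6 hx
        refine ⟨y, hy, ?_⟩
        rw [Equiv.Perm.mul_apply, hyx]
        exact hl1 x hx)
  obtain ⟨f, hf, hfg⟩ := glue_nat hm h2 (by rw [h5]; exact h4) (fun n => (hg n).1)
    (fun n => (hgg n).1)
  refine ⟨f, hf, fun a ha => ?_, ?_⟩
  · rw [hfg 0 a (h1 ha), (hg 0).2.1 a ha]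
  · ext x
    constructor
    · rintro ⟨a, ha, rfl⟩
      rw [← h5] at ha
      obtain ⟨n, hn⟩ := mem_iUnion.1 ha
      rw [hfg n a hn, ← h5']
      exact mem_iUnion.2 ⟨n + 1, (hg n).2.2 (mem_image_of_mem _ hn)⟩
    · intro hx
      rw [← h5'] at hx
      obtain ⟨n, hn⟩ := mem_iUnion.1 hx
      obtain ⟨a, ha, hax⟩ := (hgg n).2 (hm' (Nat.le_succ n) hn)
      refine ⟨a, ?_, ?_⟩
      · rw [← h5]
        exact mem_iUnion.2 ⟨n + 1, ha⟩
      · rw [hfg (n + 1) a ha, hax]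

/-- Comparison: a limit model over `D` and a limit model over `W`, along a map of `D`. The map is
changed outside `W` only. -/
theorem compare' (hls : ∀ X : Set C, #X ≤ M.χ → ∃ N ∈ M.S, X ⊆ N) (h : Lim M D B)
    (h' : Lim M W St) {f : Equiv.Perm C} (hf : f ∈ M.G) :
    ∃ g ∈ M.G, (∀ a ∈ W, g a = a) ∧ ∃ k ∈ M.G, k '' B = St ∧ ∀ a ∈ D, k a = g (f a) := by
  obtain ⟨g, hg, h1, h2, h3⟩ := h'.absorb hls (Q := f '' D) (mk_image_le.trans h.card)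
  have h4 : Lim M (g '' (f '' D)) St := h3.mono_base subset_union_right
  have h5 := (h.smul hf).smul hg
  obtain ⟨t, ht, h6, h7⟩ := h5.unique hls h4
  refine ⟨g, hg, h1, t * (g * f), M.G.mul_mem ht (M.G.mul_mem hg hf), ?_, fun a ha => ?_⟩
  · rw [← h7]
    ext x
    constructor
    · rintro ⟨b, hb, rfl⟩
      exact ⟨_, mem_image_of_mem g (mem_image_of_mem f hb), rfl⟩
    · rintro ⟨_, ⟨_, ⟨b, hb, rfl⟩, rfl⟩, rfl⟩
      exact ⟨b, hb, rfl⟩
  · exact h6 _ (mem_image_of_mem g (mem_image_of_mem f ha))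

/-- Comparison: the chart of a boundary extends to the limit block. -/
theorem compare (hls : ∀ X : Set C, #X ≤ M.χ → ∃ N ∈ M.S, X ⊆ N) (h : Lim M D B)
    (h' : Lim M W St) {f : Equiv.Perm C} (hf : f ∈ M.G) :
    ∃ k ∈ M.G, k '' B = St ∧ ∀ a ∈ D, f a ∈ W → k a = f a := by
  obtain ⟨g, -, h1, k, hk, h2, h3⟩ := h.compare' hls h' hf
  refine ⟨k, hk, h2, fun a ha haW => ?_⟩
  rw [h3 a ha, h1 _ haW]

/-- Comparison over a common part. -/
theorem exists_over (hls : ∀ X : Set C, #X ≤ M.χ → ∃ N ∈ M.S, X ⊆ N) (h : Lim M D B)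
    (h' : Lim M W St) {X : Set C} (hD : X ⊆ D) (hW : X ⊆ W) :
    ∃ k ∈ M.G, k '' B = St ∧ ∀ a ∈ X, k a = a := by
  obtain ⟨k, hk, h1, h2⟩ := h.compare hls h' M.G.one_mem
  exact ⟨k, hk, h1, fun a ha => h2 a (hD ha) (hW ha)⟩

end Lim

/-! ### Conjugacy of models -/

/-- Two models are conjugate, by a map which is given on a small set. -/
theorem exists_conj' {N N' : Set C} (hN : N ∈ M.S) (hN' : N' ∈ M.S) {A : Set C} (hA : A ⊆ N)
    (hAc : #A < M.χ) {f : Equiv.Perm C} (hf : f ∈ M.G) (hfA : ∀ a ∈ A, f a ∈ N') :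
    ∃ g ∈ M.G, (∀ a ∈ A, g a = f a) ∧ g '' N = N' := by
  obtain ⟨R, hRm, hRT, hRN⟩ := exists_filtration hN
  obtain ⟨R', hRm', hRT', hRN'⟩ := exists_filtration hN'
  have hRs : ∀ n, R n ⊆ N := fun n => by
    rw [← hRN]
    exact subset_iUnion R n
  have hRs' : ∀ n, R' n ⊆ N' := fun n => by
    rw [← hRN']
    exact subset_iUnion R' n
  let P : Set C × Equiv.Perm C → Prop := fun p => p.1 ⊆ N ∧ #p.1 < M.χ ∧ p.2 ∈ M.G ∧
    ∀ a ∈ p.1, p.2 a ∈ N'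
  have step : ∀ n (p : Set C × Equiv.Perm C), P p → ∃ p', P p' ∧ p.1 ⊆ p'.1 ∧ R n ⊆ p'.1 ∧
      R' n ⊆ p'.2 '' p'.1 ∧ ∀ a ∈ p.1, p'.2 a = p.2 a := by
    rintro n ⟨E, g⟩ ⟨hE, hEc, hg, hgE⟩
    change ∀ a ∈ E, g a ∈ N' at hgE
    obtain ⟨k, hk, hk1, hk2⟩ := M.sat hN' (A := g '' E) (B := g '' (R n)) (by
      rintro _ ⟨e, he, rfl⟩
      exact hgE e he) (small_image g hEc) (small_image g (M.T_card (hRT n)))
    have hg1 : k * g ∈ M.G := M.G.mul_mem hk hg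
    have hg2 : ∀ a ∈ E, (k * g) a = g a := fun a ha => hk1 _ (mem_image_of_mem g ha)
    have hE1 : #(E ∪ R n : Set C) < M.χ := small_union hEc (M.T_card (hRT n))
    have hE2 : ∀ a ∈ E ∪ R n, (k * g) a ∈ N' := by
      rintro a (ha | ha)
      · rw [hg2 a ha]
        exact hgE a ha
      · exact hk2 _ (mem_image_of_mem g ha)
    obtain ⟨l, hl, hl1, hl2⟩ := M.sat hN (A := E ∪ R n)
      (B := ((k * g)⁻¹ : Equiv.Perm C) '' (R' n)) (union_subset hE (hRs n)) hE1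
      (small_image _ (M.T_card (hRT' n)))
    have hg3 : ∀ a ∈ E ∪ R n, (k * g * l⁻¹) a = (k * g) a := fun a ha => by
      rw [Equiv.Perm.mul_apply, fix_inv (hl1 a ha)]
    have hg4 : ∀ b ∈ R' n, (k * g * l⁻¹) (l ((k * g)⁻¹ b)) = b := fun b _ => by
      rw [Equiv.Perm.mul_apply, inv_ap, ap_inv]
    refine ⟨⟨(E ∪ R n) ∪ l '' (((k * g)⁻¹ : Equiv.Perm C) '' (R' n)), k * g * l⁻¹⟩,
      ⟨union_subset (union_subset hE (hRs n)) ?_, small_union hE1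
        (small_image _ (small_image _ (M.T_card (hRT' n)))),
        M.G.mul_mem hg1 (M.G.inv_mem hl), ?_⟩,
      subset_union_left.trans subset_union_left, subset_union_right.trans subset_union_left,
      ?_, ?_⟩
    · rintro _ ⟨b, hb, rfl⟩
      exact hl2 b hb
    · rintro a (ha | ⟨_, ⟨b, hb, rfl⟩, rfl⟩)
      · change (k * g * l⁻¹) a ∈ N'
        rw [hg3 a ha]
        exact hE2 a ha
      · change (k * g * l⁻¹) (l ((k * g)⁻¹ b)) ∈ N'
        rw [hg4 b hb]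
        exact hRs' n hb
    · intro b hb
      exact ⟨l ((k * g)⁻¹ b), Or.inr (mem_image_of_mem l (mem_image_of_mem _ hb)), hg4 b hb⟩
    · intro a ha
      change (k * g * l⁻¹) a = g a
      rw [hg3 a (Or.inl ha), hg2 a ha]
  obtain ⟨p, hp, hpp⟩ := exists_seq (fun n (p : Set C × Equiv.Perm C) => P p ∧ A ⊆ p.1 ∧
      R n ⊆ p.1 ∧ R' n ⊆ p.2 '' p.1 ∧ ∀ a ∈ A, p.2 a = f a)
    (fun _ p p' => p.1 ⊆ p'.1 ∧ ∀ a ∈ p.1, p'.2 a = p.2 a) (by
      obtain ⟨p, h1, h2, h3, h4, h5⟩ := step 0 ⟨A, f⟩ ⟨hA, hAc, hf, hfA⟩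
      exact ⟨p, h1, h2, h3, h4, h5⟩) (by
      rintro n p ⟨h1, h2, h3, h4, h5⟩
      obtain ⟨p', h1', h2', h3', h4', h5'⟩ := step (n + 1) p h1
      exact ⟨p', ⟨h1', h2.trans h2', h3', h4', fun a ha => by
        rw [h5' a (h2 ha), h5 a ha]⟩, h2', h5'⟩)
  have hmono : ∀ n m, n ≤ m → (p n).1 ⊆ (p m).1 ∧ ∀ a ∈ (p n).1, (p m).2 a = (p n).2 a := by
    intro n m hnm
    induction m, hnm using Nat.le_induction with
    | base => exact ⟨Subset.rfl, fun _ _ => rfl⟩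
    | succ m hm ih =>
      exact ⟨ih.1.trans (hpp m).1, fun a ha => by rw [(hpp m).2 a (ih.1 ha), ih.2 a ha]⟩
  obtain ⟨h, hh, hhg⟩ := M.lim R hRm hRT (by rw [hRN]; exact hN) (fun n => (p n).2)
    (fun n => (hp n).1.2.2.1) (fun n a ha => (hpp n).2 a ((hp n).2.2.1 ha))
  have hval : ∀ n, ∀ a ∈ (p n).1, h a = (p n).2 a := by
    intro n a ha
    have haN : a ∈ N := (hp n).1.1 ha
    rw [← hRN] at haN
    obtain ⟨m, hm⟩ := mem_iUnion.1 haN
    have h1 := (hmono n (max n m) (le_max_left n m)).2 a ha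
    have h2 := (hmono m (max n m) (le_max_right n m)).2 a ((hp m).2.2.1 hm)
    rw [hhg m a hm, ← h1, h2]
  refine ⟨h, hh, fun a ha => ?_, ?_⟩
  · rw [hval 0 a ((hp 0).2.1 ha), (hp 0).2.2.2.2 a ha]
  · ext x
    constructor
    · rintro ⟨a, ha, rfl⟩
      rw [← hRN] at ha
      obtain ⟨n, hn⟩ := mem_iUnion.1 ha
      rw [hhg n a hn]
      exact (hp n).1.2.2.2 a ((hp n).2.2.1 hn)
    · intro hx
      rw [← hRN'] at hx
      obtain ⟨n, hn⟩ := mem_iUnion.1 hx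
      obtain ⟨a, ha, hax⟩ := (hp n).2.2.2.1 hn
      exact ⟨a, (hp n).1.1 ha, by rw [hval n a ha, hax]⟩

/-- Two models are conjugate. -/
theorem exists_conj {N N' : Set C} (hN : N ∈ M.S) (hN' : N' ∈ M.S) :
    ∃ g ∈ M.G, g '' N = N' := by
  obtain ⟨g, hg, -, h⟩ := exists_conj' hN hN' (A := ∅) (empty_subset N)
    (small_finite finite_empty) M.G.one_mem (fun a ha => absurd ha (notMem_empty a))
  exact ⟨g, hg, h⟩

/-! ### Existence -/

/-- Limit models over every model, from one instance. -/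
theorem exists_lim (hD : D ∈ M.S) (h : Lim M D B) (hP : P ∈ M.S) : ∃ B', Lim M P B' := by
  obtain ⟨g, hg, h1⟩ := exists_conj hD hP
  refine ⟨g '' B, ?_⟩
  rw [← h1]
  exact h.smul hg

/-- Free copies of models, from one independent pair of universal extensions. -/
theorem freeM_of_pair (hls : ∀ X : Set C, #X ≤ M.χ → ∃ N ∈ M.S, X ⊆ N) {P₀ A₀ B₀ : Set C}
    (hP₀ : P₀ ∈ M.S) (hA : Uni M P₀ A₀) (hB : Uni M P₀ B₀) (hI : M.Ind P₀ A₀ B₀) :
    ∀ P ∈ M.S, ∀ R ∈ M.S, P ⊆ R → ∀ Z : Set C, #Z ≤ M.χ →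
      ∃ g ∈ M.G, (∀ a ∈ P, g a = a) ∧ M.Ind P (g '' R) Z := by
  intro P hP R hR hPR Z hZ
  obtain ⟨c, hc, hcP⟩ := exists_conj hP hP₀
  obtain ⟨Z', hZ', h1, h2⟩ := exists_sup hls (M.S_card hP).le hZ
  obtain ⟨u, hu, hu1, hu2⟩ := hA.2 (c '' R) (M.S_inv hc hR) (by
    rw [← hcP]
    exact image_mono hPR)
  obtain ⟨v, hv, hv1, hv2⟩ := hB.2 (c '' Z') (M.S_inv hc hZ') (by
    rw [← hcP]
    exact image_mono h1)
  have hvc : v * c ∈ M.G := M.G.mul_mem hv hc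
  have hk : ((v * c)⁻¹ : Equiv.Perm C) ∈ M.G := M.G.inv_mem hvc
  have h3 : M.Ind P₀ (u '' (c '' R)) (v '' (c '' Z)) :=
    hI.mono hu2 ((image_mono (image_mono h2)).trans hv2)
  have h4 := h3.smul hk
  have h5 : ((v * c)⁻¹ : Equiv.Perm C) '' P₀ = P := by
    ext x
    constructor
    · rintro ⟨y, hy, rfl⟩
      have hy' := hy
      rw [← hcP] at hy'
      obtain ⟨z, hz, rfl⟩ := hy'
      have h6 : (v * c) z = c z := hv1 _ hy
      rw [← h6, inv_ap]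
      exact hz
    · intro hx
      have h6 : c x ∈ P₀ := by
        rw [← hcP]
        exact mem_image_of_mem c hx
      refine ⟨c x, h6, ?_⟩
      have h7 : (v * c) x = c x := hv1 _ h6
      rw [← h7, inv_ap]
  have h6 : ((v * c)⁻¹ : Equiv.Perm C) '' (v '' (c '' Z)) = Z := by
    ext x
    constructor
    · rintro ⟨_, ⟨_, ⟨z, hz, rfl⟩, rfl⟩, rfl⟩
      have : (v * c)⁻¹ ((v * c) z) = z := inv_ap _ z
      rw [Equiv.Perm.mul_apply] at this
      rwa [this]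
    · intro hx
      exact ⟨v (c x), mem_image_of_mem v (mem_image_of_mem c hx), inv_ap (v * c) x⟩
  have h7 : ((v * c)⁻¹ : Equiv.Perm C) '' (u '' (c '' R)) =
      ((v * c)⁻¹ * (u * c) : Equiv.Perm C) '' R := by
    ext x
    constructor
    · rintro ⟨_, ⟨_, ⟨z, hz, rfl⟩, rfl⟩, rfl⟩
      exact ⟨z, hz, rfl⟩
    · rintro ⟨z, hz, rfl⟩
      exact ⟨_, mem_image_of_mem u (mem_image_of_mem c hz), rfl⟩
  rw [h5, h6, h7] at h4
  refine ⟨(v * c)⁻¹ * (u * c), M.G.mul_mem hk (M.G.mul_mem hu hc), fun a ha => ?_, h4⟩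
  have h8 : c a ∈ P₀ := by
    rw [← hcP]
    exact mem_image_of_mem c ha
  have h9 : (u * c) a = (v * c) a := by
    rw [Equiv.Perm.mul_apply, Equiv.Perm.mul_apply, hu1 _ h8, hv1 _ h8]
  rw [Equiv.Perm.mul_apply, h9, inv_ap]

/-- Free limit models. -/
theorem exists_lim_free (hF : ∀ P ∈ M.S, ∀ R ∈ M.S, P ⊆ R → ∀ Z : Set C, #Z ≤ M.χ →
      ∃ g ∈ M.G, (∀ a ∈ P, g a = a) ∧ M.Ind P (g '' R) Z) (hD : D ∈ M.S)
    (h : Lim M D B) {Z : Set C} (hZ : #Z ≤ M.χ) : ∃ B', Lim M D B' ∧ M.Ind D B' Z := by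
  obtain ⟨g, hg, h1, h2⟩ := hF D hD B h.mem h.sub Z hZ
  refine ⟨g '' B, ?_, h2⟩
  have h3 : g '' D = D := by
    ext x
    constructor
    · rintro ⟨y, hy, rfl⟩
      rwa [h1 y hy]
    · exact fun hx => ⟨x, hx, h1 x hx⟩
  have h4 := h.smul hg
  rwa [h3] at h4

end Vale.Agent.P307.R2.H1L
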