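import Vale.Agent.P307.R2.H1.Pat
import Vale.Agent.P307.H67.Cuts
import Vale.Agent.P307.H67.Few

set_option linter.unusedSectionVars false

universe u v w

open FirstOrder Cardinal Set

namespace Vale.Agent.P307.R2.H1

open Vale.Agent.P307 Vale.Agent.P307.H304 Vale.Agent.P307.R2.H287 Vale.Agent.P307.H67
  Language.Structure Language.Substructure

variable {L : Language.{u, u}} {K : AEC L} {ℓ : Cardinal.{u}} {κf : Cardinal.{u} → Cardinal.{u}}

theorem mk_range_le_of_code {α : Type v} {γ : Type u} {l : Cardinal.{u}}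
    (F : α → γ) {C : Type u} (hC : #C ≤ l) (code : α → C)
    (h : ∀ c c', code c = code c' → F c = F c') : #(range F) ≤ l := by
  refine le_trans (mk_le_of_injective (f := fun y : range F => code y.2.choose) ?_) hC
  intro y y' hyy
  apply Subtype.ext
  rw [← y.2.choose_spec, ← y'.2.choose_spec]
  exact h _ _ hyy

/-- Over `l` many small tuples there are at most `l` types (given by the positive instances of
one relation). -/
theorem few_types (hK : K.IsLS ℓ) (hunb : ∀ ν, ν < κf ν ∧ K.CategoricalIn (κf ν))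
    {ν l : Cardinal.{u}} (hℓ : ℓ ≤ ν) (hνl : ν ≤ l) (hl : l ^ ν = l) {t : Tpl K ℓ} {I : Type u}
    [LinearOrder I] [WellFoundedLT I] [Nonempty I] (E : EM t I) (hE : thr κf ν ≤ #E.N)
    {ι ζ D P : Type u} [L.Structure P] (hι : #ι ≤ ν) (hζ : #ζ ≤ ν) (hD : #D ≤ l)
    (b : D → ζ → E.N) (r : ι ⊕ ζ → P) :
    #(range fun c : ι → E.N => {d : D | EqS L ν (Sum.elim c (b d)) r}) ≤ l := by
  classical
  have hν : ℵ₀ ≤ ν := t.hν.trans hℓ
  have hl0 : ℵ₀ ≤ l := hν.trans hνl
  choose s q hsq using exists_nat_term E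
  let B : Set I := range fun p : (D × ζ) × ULift.{u} ℕ => q (b p.1.1 p.1.2) p.2
  have hN : #(ULift.{u} ℕ) ≤ ν := by
    rw [mk_uLift, mk_nat, lift_aleph0]
    exact hν
  have hιN : #(ι × ULift.{u} ℕ) ≤ ν := by
    rw [mk_prod, lift_id, lift_id]
    exact (mul_le_mul' hι hN).trans (mul_eq_self hν).le
  have hζN : #(ζ × ULift.{u} ℕ) ≤ ν := by
    rw [mk_prod, lift_id, lift_id]
    exact (mul_le_mul' hζ hN).trans (mul_eq_self hν).le
  have hB : #B ≤ l := by
    refine mk_range_le.trans ?_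
    rw [mk_prod, mk_prod, lift_id, lift_id, lift_id, lift_id]
    refine (mul_le_mul' (mul_le_mul' hD (hζ.trans hνl)) (hN.trans hνl)).trans ?_
    rw [mul_eq_self hl0, mul_eq_self hl0]
  have hpow : ∀ X Y : Type u, #X ≤ l → #Y ≤ ν → #(Y → X) ≤ l := by
    intro X Y hX hY
    have h1 : #(Y → X) = #X ^ #Y := by simp
    rw [h1]
    refine (power_le_power_right hX).trans ?_
    refine (power_le_power_left (aleph0_pos.trans_le hl0).ne' hY).trans hl.le
  have h2l : ∀ Y : Type u, #Y ≤ ν → #(Set Y) ≤ l := by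
    intro Y hY
    rw [mk_set]
    refine (power_le_power_right (c := #Y) ((natCast_lt_aleph0 (n := 2)).le.trans hl0)).trans ?_
    refine (power_le_power_left (aleph0_pos.trans_le hl0).ne' hY).trans hl.le
  let C : Type u := (ι → (exLang L t.Λ).Term (ULift.{u} ℕ)) ×
    ((ι × ULift.{u} ℕ → Option B × Option B) × Set ((ι × ULift.{u} ℕ) × (ι × ULift.{u} ℕ)))
  have hC : #C ≤ l := by
    have h1 : #(ι → (exLang L t.Λ).Term (ULift.{u} ℕ)) ≤ l :=
      hpow _ _ (mk_term_le hl0 (t.hx.trans (hℓ.trans hνl)) _ (hN.trans hνl)) hι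
    have h2 : #(ι × ULift.{u} ℕ → Option B × Option B) ≤ l := by
      refine hpow _ _ ?_ hιN
      rw [mk_prod, lift_id, mk_option]
      have h2 : #B + 1 ≤ l := add_le_of_le hl0 hB (one_le_aleph0.trans hl0)
      exact (mul_le_mul' h2 h2).trans (mul_eq_self hl0).le
    have h3 : #(Set ((ι × ULift.{u} ℕ) × (ι × ULift.{u} ℕ))) ≤ l := by
      refine h2l _ ?_
      rw [mk_prod, lift_id]
      exact (mul_le_mul' hιN hιN).trans (mul_eq_self hν).le
    change #(_ × (_ × _)) ≤ l
    rw [mk_prod, mk_prod, lift_id, lift_id, lift_id, lift_id]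
    refine (mul_le_mul' h1 (mul_le_mul' h2 h3)).trans ?_
    rw [mul_eq_self hl0, mul_eq_self hl0]
  let code : (ι → E.N) → C := fun c => (fun i => s (c i), fun p => cutCode B (q (c p.1) p.2),
    {pp | q (c pp.1.1) pp.1.2 ≤ q (c pp.2.1) pp.2.2})
  refine mk_range_le_of_code _ hC code fun c c' hcc => ?_
  have hs : ∀ i, s (c i) = s (c' i) := fun i => congrFun (congrArg Prod.fst hcc) i
  have hcut : ∀ p : ι × ULift.{u} ℕ, cutCode B (q (c p.1) p.2) = cutCode B (q (c' p.1) p.2) :=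
    fun p => congrFun (congrArg (fun x : C => x.2.1) hcc) p
  have hord : ∀ p p' : ι × ULift.{u} ℕ, q (c p.1) p.2 ≤ q (c p'.1) p'.2 ↔
      q (c' p.1) p.2 ≤ q (c' p'.1) p'.2 := by
    intro p p'
    have h1 : (p, p') ∈ (code c).2.2 ↔ (p, p') ∈ (code c').2.2 := by rw [hcc]
    exact h1
  have key : ∀ d : D, EqS L ν (Sum.elim c (b d)) (Sum.elim c' (b d)) := by
    intro d
    let Q : Type u := (ζ × ULift.{u} ℕ) ⊕ (ι × ULift.{u} ℕ)
    have hQ : #Q ≤ ν := by
      change #(_ ⊕ _) ≤ ν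
      rw [mk_sum, lift_id, lift_id]
      exact add_le_of_le hν hζN hιN
    let wf : (ι → E.N) → Q → I := fun c => Sum.elim (fun p => q (b d p.1) p.2)
      (fun p => q (c p.1) p.2)
    have hBm : ∀ p : ζ × ULift.{u} ℕ, q (b d p.1) p.2 ∈ B := fun p => ⟨((d, p.1), p.2), rfl⟩
    have hw : ∀ p p' : Q, wf c p ≤ wf c p' ↔ wf c' p ≤ wf c' p' := by
      rintro (p | p) (p' | p')
      · exact Iff.rfl
      · change q (b d p.1) p.2 ≤ q (c p'.1) p'.2 ↔ q (b d p.1) p.2 ≤ q (c' p'.1) p'.2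
        rw [← not_lt, ← not_lt, cutCode_snd B _ ⟨_, hBm p⟩, cutCode_snd B _ ⟨_, hBm p⟩, hcut p']
      · change q (c p.1) p.2 ≤ q (b d p'.1) p'.2 ↔ q (c' p.1) p.2 ≤ q (b d p'.1) p'.2
        rw [cutCode_fst B _ ⟨_, hBm p'⟩, cutCode_fst B _ ⟨_, hBm p'⟩, hcut p]
      · exact hord p p'
    have hιζ : #(ι ⊕ ζ) ≤ ν := by
      rw [mk_sum, lift_id, lift_id]
      exact add_le_of_le hν hι hζ
    let tm : ι ⊕ ζ → (exLang L t.Λ).Term Q := Sum.elim
      (fun i => (s (c i)).relabel fun k => Sum.inr (i, k))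
      (fun z => (s (b d z)).relabel fun k => Sum.inl (z, k))
    have h1 := eqS_pat hK hunb hℓ E E hE hE hQ (wf c) (wf c') hw hιζ tm
    have h2 : (fun i => (tm i).realize fun p => E.c (wf c p)) = Sum.elim c (b d) := by
      funext i
      rcases i with i | z
      · change ((s (c i)).relabel fun k => (Sum.inr (i, k) : Q)).realize _ = c i
        rw [Language.Term.realize_relabel]
        exact hsq (c i)
      · change ((s (b d z)).relabel fun k => (Sum.inl (z, k) : Q)).realize _ = b d z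
        rw [Language.Term.realize_relabel]
        exact hsq (b d z)
    have h3 : (fun i => (tm i).realize fun p => E.c (wf c' p)) = Sum.elim c' (b d) := by
      funext i
      rcases i with i | z
      · change ((s (c i)).relabel fun k => (Sum.inr (i, k) : Q)).realize _ = c' i
        rw [Language.Term.realize_relabel, hs i]
        exact hsq (c' i)
      · change ((s (b d z)).relabel fun k => (Sum.inl (z, k) : Q)).realize _ = b d z
        rw [Language.Term.realize_relabel]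
        exact hsq (b d z)
    rw [h2, h3] at h1
    exact h1
  ext d
  exact ⟨fun h => (key d).symm.trans h, fun h => (key d).trans h⟩

/-- Values of terms at tuples with the same atomic type. -/
theorem eqS_of_atEq (hK : K.IsLS ℓ) (hunb : ∀ ν, ν < κf ν ∧ K.CategoricalIn (κf ν))
    {ν : Cardinal.{u}} (hℓ : ℓ ≤ ν) {L₁ : Language.{u, u}} (φ : L →ᴸ L₁) {M N : Type u}
    [L.Structure M] [L₁.Structure M] [φ.IsExpansionOn M] [L.Structure N] [L₁.Structure N]
    [φ.IsExpansionOn N] (hM : Gr.Cl1 K φ M) (hN : Gr.Cl1 K φ N) {Q : Type u} {u : Q → M}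
    {u' : Q → N} (h : AtEq L₁ u u') (hcard : thr κf ν ≤ #(closure L₁ (range u))) {ι : Type u}
    (hι : #ι ≤ ν) (s : ι → L₁.Term Q) :
    EqS L ν (fun i => (s i).realize u) (fun i => (s i).realize u') := by
  obtain ⟨e, he⟩ := Gr.exists_closure_equiv h
  let S := closure L₁ (range u)
  let f : (φ.substructureReduct S) ↪[L] M := Gr.subEmb φ S S.subtype
  let g : (φ.substructureReduct S) ↪[L] N :=
    Gr.subEmb φ S ((closure L₁ (range u')).subtype.comp e.toEmbedding)
  have hmem : ∀ i, (s i).realize u ∈ S := fun i => Gr.mem_closure_range.2 ⟨_, rfl⟩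
  let x : ι → φ.substructureReduct S := fun i => ⟨(s i).realize u, hmem i⟩
  have h1 : EqS L ν x (fun i => f (x i)) :=
    EqS.map_emb hK hunb hℓ f (Gr.Cl1.emb hM S _) hcard hι x
  have h2 : EqS L ν x (fun i => g (x i)) :=
    EqS.map_emb hK hunb hℓ g (Gr.Cl1.emb hN S _) hcard hι x
  have h3 : (fun i => f (x i)) = fun i => (s i).realize u := rfl
  have h4 : (fun i => g (x i)) = fun i => (s i).realize u' := funext fun i => he (s i) (hmem i)
  rw [h3] at h1
  rw [h4] at h2
  exact h1.symm.trans h2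

/-- The order threshold. -/
noncomputable def opB (κf : Cardinal.{u} → Cardinal.{u}) (ν : Cardinal.{u}) : Cardinal.{u} :=
  max (hanf (2 ^ thr κf ν)) (thr κf ν)

theorem thr_le_opB (κf : Cardinal.{u} → Cardinal.{u}) (ν : Cardinal.{u}) :
    thr κf ν ≤ opB κf ν := le_max_right _ _

/-- **No order property** in categorical classes: there is no sequence of length `opB ν` of pairs
of tuples of length `≤ ν` such that the `L_{∞,ν⁺}`-type of `(a x, b y)` is that of `r` for `x < y`
and is not that of `r` for `y < x`. -/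
theorem no_order (hK : K.IsLS ℓ) (hunb : ∀ ν, ν < κf ν ∧ K.CategoricalIn (κf ν))
    {ν : Cardinal.{u}} (hℓ : ℓ ≤ ν) {M : Type u} [L.Structure M] (hM : K.mem M)
    (hMκ : opB κf ν ≤ #M) {X : Type u} [LinearOrder X] [WellFoundedLT X] (hX : opB κf ν ≤ #X)
    {ι ζ P : Type u} [L.Structure P] (hι : #ι ≤ ν) (hζ : #ζ ≤ ν) (a : X → ι → M) (b : X → ζ → M)
    (r : ι ⊕ ζ → P) (h1 : ∀ x y, x < y → EqS L ν (Sum.elim (a x) (b y)) r)
    (h2 : ∀ x y, x < y → ¬ EqS L ν (Sum.elim (a y) (b x)) r) : False := by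
  classical
  have hν : ℵ₀ ≤ ν := hK.1.trans hℓ
  let τ := thr κf ν
  have hντ : ν ≤ τ := le_thr hunb ν
  have hτ0 : ℵ₀ ≤ τ := hν.trans hντ
  have hτM : τ ≤ #M := (thr_le_opB κf ν).trans hMκ
  obtain ⟨X', hX'⟩ := le_mk_iff_exists_set.1 hX
  obtain ⟨x⟩ : Nonempty (X' ↪ M) := (Cardinal.le_def _ _).1 (hX'.trans_le hMκ)
  have hX'0 : 0 < #X' := by
    rw [hX']
    exact aleph0_pos.trans_le (hτ0.trans (thr_le_opB κf ν))
  have hX'ne : Nonempty X' := mk_ne_zero_iff.1 hX'0.ne'
  have hMne : Nonempty M := ⟨x (Classical.arbitrary X')⟩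
  obtain ⟨N₀, hN₀, -, hN₀c⟩ := exists_sub_card hK (hℓ.trans hντ) hM hτM ∅ (by simp)
  obtain ⟨fn₀, hfn₀⟩ := Gr.exists_skolem (hK.mono (hℓ.trans hντ)) hM (fun _ => (N₀ : Set M))
    (fun _ => hN₀c.le) (mk_out τ).symm.le
  let Λ : Type u := τ.out ⊕ (ι ⊕ ζ)
  let L₁ : Language.{u, u} := L.sum (Gr.LX Λ PEmpty.{u + 1})
  let φ : L →ᴸ L₁ := Language.LHom.sumInl
  let inv : M → X' := Function.invFun x
  let g : ι ⊕ ζ → M → M := fun k m => Sum.elim (a (inv m)) (b (inv m)) k
  have hg : ∀ k (y : X'), g k (x y) = Sum.elim (a y) (b y) k := by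
    intro k y
    have h3 : inv (x y) = y := Function.leftInverse_invFun x.injective y
    change Sum.elim (a (inv (x y))) (b (inv (x y))) k = _
    rw [h3]
  let fn : ∀ n : ℕ, Λ → (Fin n → M) → M := fun n k v =>
    Sum.elim (fun l => fn₀ n l v)
      (fun k => if h : 0 < n then g k (v ⟨0, h⟩) else Classical.arbitrary M) k
  let strX : (Gr.LX Λ PEmpty.{u + 1}).Structure M := Gr.lxStr fn (fun _ h _ => h.elim)
  have hL₁ : L₁.card ≤ τ := by
    refine Gr.card_LX_le hτ0 (hK.2.1.trans (hℓ.trans hντ)) ?_ (by simp)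
    simp only [Λ, mk_sum, lift_id]
    exact add_le_of_le hτ0 (mk_out τ).le (add_le_of_le hτ0 (hι.trans hντ) (hζ.trans hντ))
  have hcl : ∀ S : L₁.Substructure M, (∃ S' : L.Substructure M, K.le S' ∧ (S' : Set M) = S) ∧
      (N₀ : Set M) ⊆ S := by
    intro S
    have h3 := hfn₀ S fun n ξ v hv => S.fun_mem (Sum.inr (Sum.inl ξ) : L₁.Functions n) v hv
    exact ⟨h3.1, h3.2 ∅ (by simp)⟩
  have hcl1 : Gr.Cl1 K φ M := by
    intro S
    obtain ⟨S', h3, h4⟩ := (hcl S).1
    have h5 : φ.substructureReduct S = S' := SetLike.coe_injective h4.symm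
    rw [h5]
    exact h3
  obtain ⟨a', ha1, ha2⟩ := exists_template (L := L₁) hτ0 hL₁ x (by
    rw [hX']
    exact le_max_left _ _)
  have hta : IsTemplate L₁ (fun n k => x (a' n k)) := fun k n g hg => ha2 k n g hg
  -- the order
  let l : Cardinal.{u} := 2 ^ τ
  have hτl : τ ≤ l := (cantor τ).le
  have hl0 : ℵ₀ ≤ l := hτ0.trans hτl
  have hlν : l ^ ν = l := by
    change (2 ^ τ) ^ ν = 2 ^ τ
    rw [← power_mul, mul_eq_left hτ0 hντ (aleph0_pos.trans_le hν).ne']
  obtain ⟨J, _, D, Y, hJ, hD, hY, hYD, hsep⟩ := exists_many_cuts hl0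
  obtain ⟨hκ1, hκcat⟩ := hunb (2 ^ l)
  let κ := κf (2 ^ l)
  have hlκ : l ≤ κ := ((cantor l).trans hκ1).le
  have hτκ : τ ≤ κ := hτl.trans hlκ
  have hκ0 : ℵ₀ ≤ κ := hl0.trans hlκ
  let I : Type u := J ⊕ₗ κ.ord.ToType
  have hI : #I = κ := by
    have h3 : #I = #(J ⊕ κ.ord.ToType) := rfl
    rw [h3, mk_sum, lift_id, lift_id, mk_toType, card_ord]
    exact add_eq_right hκ0 (hJ.trans hκ1.le)
  obtain ⟨N, strN, c, hc, htop⟩ := exists_isEM hta I
  let strN' : L.Structure N := φ.reduct N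
  have hNK : K.mem N ∧ Gr.Cl1 K φ N := hcl1.transfer fun A => by
    obtain ⟨ρ⟩ := Gr.isEM_local hc htop A
    exact ⟨ρ, ρ.injective⟩
  have ha01 : x (a' 2 0) ≠ x (a' 2 1) := fun h =>
    absurd (x.injective h) (ha1 2 (show (0 : Fin 2) < 1 by decide)).ne
  have hcinj : Function.Injective c := hc.injective ha01
  have hNκ : #N = κ := by
    apply le_antisymm
    · have h3 : ∀ x : N, ∃ t : L₁.Term I, t.realize c = x := fun x => by
        rw [← Gr.mem_closure_range, htop]
        trivial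
      choose t ht using h3
      have h4 : #N ≤ #(L₁.Term I) := mk_le_of_injective (f := t) fun x y hxy => by
        rw [← ht x, ← ht y, hxy]
      exact h4.trans (mk_term_le hκ0 (hL₁.trans hτκ) I hI.le)
    · rw [← hI]
      exact mk_le_of_injective hcinj
  obtain ⟨t⟩ := exists_tpl' hK hunb
  obtain ⟨E⟩ := exists_em t κ.ord.ToType
  have hEκ : #E.N = κ := E.card_eq ((hℓ.trans hντ).trans hτκ) (by rw [mk_toType, card_ord])
  obtain ⟨e⟩ := hκcat.2 N E.N hNK.1 E.mem hNκ hEκ
  -- the tuples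
  let fk : ι ⊕ ζ → L₁.Functions 1 := fun k => Sum.inr (Sum.inr k)
  let A : J → ι → E.N := fun j i => e (Language.Structure.funMap (fk (Sum.inl i)) ![c (Sum.inlₗ j)])
  let B : J → ζ → E.N := fun j i => e (Language.Structure.funMap (fk (Sum.inr i)) ![c (Sum.inlₗ j)])
  have hιζ : #(ι ⊕ ζ) ≤ ν := by
    rw [mk_sum, lift_id, lift_id]
    exact add_le_of_le hν hι hζ
  have hfM : ∀ (k : ι ⊕ ζ) (y : X'),
      Language.Structure.funMap (fk k) (fun _ : Fin 1 => x y) = Sum.elim (a y) (b y) k := by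
    intro k y
    change fn 1 (Sum.inr k) (fun _ => x y) = _
    have h3 : fn 1 (Sum.inr k) (fun _ => x y) = g k (x y) := by
      simp only [fn, Sum.elim_inr, Nat.one_pos, dite_true]
    rw [h3, hg]
  have key : ∀ (p : ι → Fin 2) (q : ζ → Fin 2) (j j' : J), j < j' →
      EqS L ν (Sum.elim (fun i => a (a' 2 (p i)) i) (fun i => b (a' 2 (q i)) i))
        (Sum.elim (fun i => A (![j, j'] (p i)) i) (fun i => B (![j, j'] (q i)) i)) := by
    intro p q j j' hjj
    let v : Fin 2 → I := fun k => Sum.inlₗ (![j, j'] k)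
    have hv : StrictMono v := by
      rw [Fin.strictMono_iff_lt_succ]
      intro i
      have : i = 0 := Subsingleton.elim _ _
      subst this
      exact Sum.Lex.inl_lt_inl_iff.2 hjj
    have hat : AtEq L₁ (fun k : ULift.{u} (Fin 2) => x (a' 2 k.down))
        (fun k : ULift.{u} (Fin 2) => c (v k.down)) := ((hc 2 v hv).comp ULift.down).symm
    have hcard : thr κf ν ≤ #(closure L₁ (range fun k : ULift.{u} (Fin 2) => x (a' 2 k.down))) := by
      exact hN₀c.symm.trans_le (mk_le_mk_of_subset (hcl _).2)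
    let s : ι ⊕ ζ → L₁.Term (ULift.{u} (Fin 2)) := Sum.elim
      (fun i => Language.Term.func (fk (Sum.inl i)) fun _ => Language.Term.var ⟨p i⟩)
      (fun i => Language.Term.func (fk (Sum.inr i)) fun _ => Language.Term.var ⟨q i⟩)
    have h3 := eqS_of_atEq hK hunb hℓ φ hcl1 hNK.2 hat hcard hιζ s
    have h4 : (fun k => (s k).realize fun k : ULift.{u} (Fin 2) => x (a' 2 k.down)) =
        Sum.elim (fun i => a (a' 2 (p i)) i) (fun i => b (a' 2 (q i)) i) := by
      funext k
      rcases k with k | k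
      · exact hfM (Sum.inl k) _
      · exact hfM (Sum.inr k) _
    rw [h4] at h3
    refine h3.trans ?_
    have h5 := good_gr_equiv hν e (A := range fun k => (s k).realize
      fun k : ULift.{u} (Fin 2) => c (v k.down)) (mk_range_le.trans hιζ)
    refine h5.subset ?_
    rintro _ ⟨k, rfl⟩
    refine mem_gr.2 ⟨⟨k, rfl⟩, ?_⟩
    rcases k with k | k
    · change A (![j, j'] (p k)) k = _
      change e _ = e _
      congr 1
      change Language.Structure.funMap (fk (Sum.inl k)) _ =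
        Language.Structure.funMap (fk (Sum.inl k)) _
      congr 1
      funext z
      rw [Matrix.cons_val_fin_one]
      rfl
    · change B (![j, j'] (q k)) k = _
      change e _ = e _
      congr 1
      change Language.Structure.funMap (fk (Sum.inr k)) _ =
        Language.Structure.funMap (fk (Sum.inr k)) _
      congr 1
      funext z
      rw [Matrix.cons_val_fin_one]
      rfl
  have hlt : a' 2 0 < a' 2 1 := ha1 2 (show (0 : Fin 2) < 1 by decide)
  have hpos : ∀ j j' : J, j < j' → EqS L ν (Sum.elim (A j) (B j')) r := by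
    intro j j' hjj
    exact (key (fun _ => 0) (fun _ => 1) j j' hjj).symm.trans (h1 _ _ hlt)
  have hneg : ∀ j j' : J, j < j' → ¬ EqS L ν (Sum.elim (A j') (B j)) r := by
    intro j j' hjj h
    exact h2 _ _ hlt ((key (fun _ => 1) (fun _ => 0) j j' hjj).trans h)
  -- counting
  have hInE : Nonempty κ.ord.ToType := by
    rw [← mk_ne_zero_iff, mk_toType, card_ord]
    exact (aleph0_pos.trans_le hκ0).ne'
  have hfew := few_types hK hunb hℓ (hντ.trans hτl) hlν E (hτκ.trans hEκ.ge) hι hζ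
    (D := D) hD (fun d => B d.1) r
  refine absurd (hY.trans_le (le_trans ?_ hfew)) (lt_irrefl _)
  let T : Y → range (fun c : ι → E.N => {d : D | EqS L ν (Sum.elim c (B d.1)) r}) :=
    fun y => ⟨_, A y.1, rfl⟩
  refine mk_le_of_injective (f := T) ?_
  have hne : ∀ y y' : Y, y.1 < y'.1 → T y ≠ T y' := by
    intro y y' hyy h
    obtain ⟨d, hd, h3, h4⟩ := hsep y.1 y.2 y'.1 y'.2 hyy
    have h5 : (⟨d, hd⟩ : D) ∈ (T y).1 := hpos _ _ h3
    rw [h] at h5
    exact hneg _ _ h4 h5
  intro y y' h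
  rcases lt_trichotomy y.1 y'.1 with h3 | h3 | h3
  · exact absurd h (hne _ _ h3)
  · exact Subtype.ext h3
  · exact absurd h.symm (hne _ _ h3)

end Vale.Agent.P307.R2.H1
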