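import Vale.Agent.P307.R2.H287.Unif2

set_option linter.unusedSectionVars false

universe u v w

open FirstOrder Cardinal Set

namespace Vale.Agent.P307.R2.H1

open Vale.Agent.P307 Vale.Agent.P307.H304 Vale.Agent.P307.R2.H287 Language.Structure
  Language.Substructure

variable {L : Language.{u, u}} {K : AEC L} {ℓ : Cardinal.{u}} {κf : Cardinal.{u} → Cardinal.{u}}

theorem le_thr (hunb : ∀ ν, ν < κf ν ∧ K.CategoricalIn (κf ν)) (ν : Cardinal.{u}) :
    ν ≤ thr κf ν :=
  ((Order.le_succ ν).trans (le_max_right _ _)).trans (hunb _).1.le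

/-- Post-composition of an equality of types with strong embeddings. -/
theorem EqS.map_emb (hK : K.IsLS ℓ) (hunb : ∀ ν, ν < κf ν ∧ K.CategoricalIn (κf ν))
    {ν : Cardinal.{u}} (hℓ : ℓ ≤ ν) {M M' : Type u} [L.Structure M] [L.Structure M']
    (f : M ↪[L] M') (hf : K.Emb f) (hM : thr κf ν ≤ #M) {ι : Type u} (hι : #ι ≤ ν) (a : ι → M) :
    EqS L ν a (fun i => f (a i)) := by
  refine (good_gr_thr hK hunb hℓ f hf hM (range a) (mk_range_le.trans hι)).subset ?_
  rintro _ ⟨i, rfl⟩
  exact mem_gr.2 ⟨⟨i, rfl⟩, rfl⟩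

/-- In large EM models the types of small tuples depend only on the order pattern, for ALL linear
orders. -/
theorem eqS_pat (hK : K.IsLS ℓ) (hunb : ∀ ν, ν < κf ν ∧ K.CategoricalIn (κf ν))
    {ν : Cardinal.{u}} (hℓ : ℓ ≤ ν) {t : Tpl K ℓ} {I I' : Type u} [LinearOrder I] [LinearOrder I']
    (E : EM t I) (E' : EM t I') (hE : thr κf ν ≤ #E.N) (hE' : thr κf ν ≤ #E'.N)
    {Q : Type u} (hQ : #Q ≤ ν) (w : Q → I) (w' : Q → I') (hw : ∀ p q, w p ≤ w q ↔ w' p ≤ w' q)
    {ι : Type u} (hι : #ι ≤ ν) (s : ι → (exLang L t.Λ).Term Q) :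
    EqS L ν (fun i => (s i).realize fun q => E.c (w q))
      (fun i => (s i).realize fun q => E'.c (w' q)) := by
  have hν : ℵ₀ ≤ ν := t.hν.trans hℓ
  obtain ⟨J, _, σ, hJ, hσ⟩ := exists_nice_ext ν hν I
  obtain ⟨J', _, σ', hJ', hσ'⟩ := exists_nice_ext ν hν I'
  obtain ⟨F⟩ := exists_em t J
  obtain ⟨F'⟩ := exists_em t J'
  obtain ⟨f, hf, hf'⟩ := E.exists_map F σ hσ
  obtain ⟨g, hg, hg'⟩ := E'.exists_map F' σ' hσ'
  have hre : ∀ (i : ι), f ((s i).realize fun q => E.c (w q)) =
      (s i).realize fun q => F.c (σ (w q)) := by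
    intro i
    have h1 := hf' ((s i).relabel w)
    rw [Language.Term.realize_relabel, Language.Term.realize_relabel] at h1
    exact h1
  have hre' : ∀ (i : ι), g ((s i).realize fun q => E'.c (w' q)) =
      (s i).realize fun q => F'.c (σ' (w' q)) := by
    intro i
    have h1 := hg' ((s i).relabel w')
    rw [Language.Term.realize_relabel, Language.Term.realize_relabel] at h1
    exact h1
  have h1 : EqS (exLang L t.Λ) ν (fun i => (s i).realize fun q => F.c (σ (w q)))
      (fun i => (s i).realize fun q => F'.c (σ' (w' q))) :=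
    eqS_of_pattern hν (t.hx.trans hℓ) F.isEM F'.isEM F.top F'.top hJ hJ' hQ (fun q => σ (w q))
      (fun q => σ' (w' q)) (fun p q => by rw [hσ.le_iff_le, hσ'.le_iff_le, hw]) s
  have h2 : EqS L ν (fun i => (s i).realize fun q => F.c (σ (w q)))
      (fun i => (s i).realize fun q => F'.c (σ' (w' q))) := Good.reduct (exHom L t.Λ) h1
  have h3 := EqS.map_emb hK hunb hℓ f hf hE hι fun i => (s i).realize fun q => E.c (w q)
  have h4 := EqS.map_emb hK hunb hℓ g hg hE' hι fun i => (s i).realize fun q => E'.c (w' q)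
  simp only [hre] at h3
  simp only [hre'] at h4
  exact (h3.trans h2).trans h4.symm

/-- Every element of an EM model is given by a term in countably many variables. -/
theorem exists_nat_term {t : Tpl K ℓ} {I : Type u} [LinearOrder I] [Nonempty I] (E : EM t I)
    (z : E.N) : ∃ (s : (exLang L t.Λ).Term (ULift.{u} ℕ)) (q : ULift.{u} ℕ → I),
      s.realize (fun k => E.c (q k)) = z := by
  classical
  obtain ⟨w, s, hs⟩ := exists_finset_term E.top z
  refine ⟨s.relabel fun d => ULift.up (w.equivFin d).1, fun k =>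
    if h : k.down < w.card then (w.equivFin.symm ⟨k.down, h⟩).1 else Classical.arbitrary I, ?_⟩
  rw [Language.Term.realize_relabel, ← hs]
  congr 1
  funext d
  have h1 : (w.equivFin d).1 < w.card := (w.equivFin d).2
  change E.c (dite _ _ _) = E.c d
  rw [dif_pos h1]
  simp

end Vale.Agent.P307.R2.H1
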